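import Vale.Agent.N144K.Defs
import Vale.Agent.N144J.Top
import Vale.Agent.P144N.Appr

/-!
Compact connected hulls; local defining functions.
-/

namespace Vale.Agent.N144K

open Set Filter Topology Metric

/-- A compact subset of a domain lies in a compact connected subset. -/
theorem conn_compact {O K : Set ℂ} (hO : IsOpen O) (hc : IsPreconnected O) (hK : IsCompact K)
    (h : K ⊆ O) {z₀ : ℂ} (hz : z₀ ∈ O) :
    ∃ L, IsCompact L ∧ IsPreconnected L ∧ z₀ ∈ L ∧ K ⊆ L ∧ L ⊆ O := by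
  refine hK.induction_on (p := fun S => ∃ L, IsCompact L ∧ IsPreconnected L ∧ z₀ ∈ L ∧ S ⊆ L ∧ L ⊆ O)
    ⟨{z₀}, isCompact_singleton, isPreconnected_singleton, rfl, empty_subset _,
      singleton_subset_iff.2 hz⟩ ?_ ?_ fun z hzK => ?_
  · rintro s t hst ⟨L, a, b, c, d, e⟩
    exact ⟨L, a, b, c, hst.trans d, e⟩
  · rintro s t ⟨L, a, b, c, d, e⟩ ⟨L', a', b', c', d', e'⟩
    exact ⟨L ∪ L', a.union a', b.union z₀ c c' b', Or.inl c, union_subset_union d d',
      union_subset e e'⟩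
  · obtain ⟨γ, hγ⟩ := P153.TOP.joinedIn_of_preconnected hO hc subset_rfl hz (h hzK)
    obtain ⟨r, hr, hB⟩ := nhds_basis_closedBall.mem_iff.1 (hO.mem_nhds (h hzK))
    exact ⟨closedBall z r, mem_nhdsWithin_of_mem_nhds (closedBall_mem_nhds z hr),
      range γ ∪ closedBall z r, (isCompact_range γ.continuous).union (isCompact_closedBall z r),
      (isPreconnected_range γ.continuous).union z ⟨1, γ.target⟩ (mem_closedBall_self hr.le)
        (convex_closedBall z r).isPreconnected, Or.inl ⟨0, γ.source⟩, subset_union_right,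
      union_subset (by rintro _ ⟨t, rfl⟩; exact hγ t) hB⟩

/-- Near `S` the set `D` has a regular defining function. -/
def Sm (D S : Set ℂ) : Prop :=
  ∃ (N : Set ℂ) (F : ℂ → ℝ), IsOpen N ∧ S ⊆ N ∧ ContDiffOn ℝ 1 F N ∧ (∀ z ∈ N, z ∈ D ↔ 0 < F z) ∧
    ∀ z ∈ N, F z = 0 → fderiv ℝ F z ≠ 0

end Vale.Agent.N144K
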