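import Vale.Agent.N144K.Base

/-!
Domains with a regular defining function: from local to global, components, approximation.
-/

namespace Vale.Agent.N144K

open Set Filter Topology Metric Vale.Agent.P144Z
open scoped Manifold ContDiff

theorem c1_of_sm {D : Set ℂ} (hb : Bornology.IsBounded D) (ho : IsOpen D) (h : Sm D (frontier D)) :
    IsC1 D := by
  classical
  obtain ⟨N, F, hN, hs, hF, h1, h2⟩ := h
  obtain ⟨χ, c0, c1, c2⟩ := exists_contMDiffMap_zero_one_nhds_of_isClosed (n := 1) 𝓘(ℝ, ℂ)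
    hN.isClosed_compl isClosed_frontier (disjoint_left.2 fun z hz hz' => hz (hs hz'))
  have hχ : ContDiff ℝ 1 χ := χ.contMDiff.contDiff
  rw [eventually_nhdsSet_iff_forall] at c0 c1
  set G : ℂ → ℝ := fun z => χ z * F z + (1 - χ z) * (if z ∈ D then 1 else -1) with hG
  have k : ∀ z ∈ frontier D, G =ᶠ[𝓝 z] F := fun z hz => (c1 z hz).mono fun y hy => by
    simp only [hG, hy]; ring
  have pos : ∀ z ∈ D, 0 < G z := fun z hz => by
    simp only [hG, if_pos hz]
    by_cases e : z ∈ N
    · have := (h1 z e).1 hz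
      rcases (c2 z).2.eq_or_lt with a | a
      · rw [a]; linarith
      · nlinarith [mul_nonneg (c2 z).1 this.le]
    · rw [(c0 z e).self_of_nhds]; norm_num
  have neg : ∀ z ∉ D, G z ≤ 0 ∧ (G z = 0 → z ∈ N ∧ F z = 0) := fun z hz => by
    simp only [hG, if_neg hz]
    by_cases e : z ∈ N
    · have a : F z ≤ 0 := not_lt.1 fun a => hz ((h1 z e).2 a)
      have b := mul_nonpos_of_nonneg_of_nonpos (c2 z).1 a
      refine ⟨by linarith [(c2 z).2], fun e' => ⟨e, ?_⟩⟩
      have : χ z = 1 := by linarith [(c2 z).2]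
      rw [this] at e'
      linarith
    · rw [(c0 z e).self_of_nhds]
      norm_num
  refine ⟨hb, G, contDiff_iff_contDiffAt.2 fun z => ?_, ?_, fun z hz => ?_⟩
  · by_cases hz : z ∈ frontier D
    · exact ((hF z (hs hz)).contDiffAt (hN.mem_nhds (hs hz))).congr_of_eventuallyEq (k z hz)
    have a : ContDiffAt ℝ 1 (fun y => χ y * F y) z := by
      by_cases e : z ∈ N
      · exact hχ.contDiffAt.mul ((hF z e).contDiffAt (hN.mem_nhds e))
      · exact (contDiffAt_const (c := (0 : ℝ))).congr_of_eventuallyEq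
          ((c0 z e).mono fun y hy => by simp only [hy, zero_mul])
    refine a.add ((contDiffAt_const.sub hχ.contDiffAt).mul ?_)
    by_cases e : z ∈ D
    · exact (contDiffAt_const (c := (1 : ℝ))).congr_of_eventuallyEq
        ((ho.eventually_mem e).mono fun y hy => if_pos hy)
    · have : z ∉ closure D := fun a => hz (by rw [ho.frontier_eq]; exact ⟨a, e⟩)
      exact (contDiffAt_const (c := (-1 : ℝ))).congr_of_eventuallyEq
        ((isClosed_closure.isOpen_compl.eventually_mem this).mono fun y hy =>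
          if_neg fun a => hy (subset_closure a))
  · ext z
    exact ⟨pos z, fun a => by_contra fun e => (neg z e).1.not_gt a⟩
  · have zD : z ∉ D := fun e => (pos z e).ne' hz
    obtain ⟨a, b⟩ := (neg z zD).2 hz
    have zf : z ∈ frontier D := by
      rw [ho.frontier_eq]
      refine ⟨by_contra fun n => h2 z a b (IsLocalMax.fderiv_eq_zero ?_), zD⟩
      filter_upwards [isClosed_closure.isOpen_compl.mem_nhds n, hN.mem_nhds a] with y y1 y2
      rw [b]
      exact not_lt.1 fun e => y1 (subset_closure ((h1 y y2).2 e))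
    rw [(k z zf).fderiv_eq]
    exact h2 z a b

theorem loc_conn {F : ℂ → ℝ} (hF : ContDiff ℝ 1 F) {z : ℂ} (h0 : F z = 0) (h1 : fderiv ℝ F z ≠ 0) :
    ∃ q, ∀ᶠ y in 𝓝 z, 0 < F y → ∃ C, IsPreconnected C ∧ C ⊆ {w | 0 < F w} ∧ y ∈ C ∧ q ∈ C := by
  obtain ⟨v, hv⟩ : ∃ v, 0 < fderiv ℝ F z v := by
    obtain ⟨v, hv⟩ : ∃ v, fderiv ℝ F z v ≠ 0 := by
      by_contra n
      exact h1 (ContinuousLinearMap.ext fun v => not_not.1 fun e => n ⟨v, e⟩)
    rcases hv.lt_or_gt with a | a
    exacts [⟨-v, by rw [map_neg]; linarith⟩, ⟨v, a⟩]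
  have c : Continuous fun q : ℂ × ℝ => fderiv ℝ F (q.1 + q.2 • v) v :=
    ((hF.continuous_fderiv one_ne_zero).comp (by fun_prop)).clm_apply continuous_const
  have e : ∀ᶠ q in 𝓝 z ×ˢ 𝓝 (0 : ℝ), 0 < fderiv ℝ F (q.1 + q.2 • v) v := by
    rw [← nhds_prod_eq]
    exact c.continuousAt.eventually (lt_mem_nhds (by simpa using hv))
  obtain ⟨pa, ha, pb, hb, hq⟩ := eventually_prod_iff.1 e
  obtain ⟨s, hs, hs'⟩ := nhds_basis_closedBall.eventually_iff.1 hb
  have mono : ∀ y, pa y → StrictMonoOn (fun t : ℝ => F (y + t • v)) (Icc 0 s) := fun y hy => by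
    refine strictMonoOn_of_deriv_pos (convex_Icc _ _)
      (hF.continuous.comp (by fun_prop)).continuousOn fun t ht => ?_
    have d : HasDerivAt (fun t : ℝ => F (y + t • v)) (fderiv ℝ F (y + t • v) v) t := by
      have := ((hF.differentiable one_ne_zero) (y + t • v)).hasFDerivAt.comp_hasDerivAt t
        (((hasDerivAt_id t).smul_const v).const_add y)
      rwa [one_smul] at this
    rw [d.deriv]
    have := interior_subset ht
    exact hq hy (hs' (by rw [mem_closedBall_zero_iff, Real.norm_eq_abs, abs_of_nonneg this.1]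
                         exact this.2))
  have p0 : 0 < F (z + s • v) := by
    have := mono z ha.self_of_nhds (left_mem_Icc.2 hs.le) (right_mem_Icc.2 hs.le) hs
    simpa [h0] using this
  obtain ⟨r, hr, hB⟩ := Metric.isOpen_iff.1 (isOpen_lt continuous_const hF.continuous) _ p0
  refine ⟨z + s • v, ?_⟩
  filter_upwards [ha, ball_mem_nhds z hr] with y y1 y2 y3
  refine ⟨(fun t : ℝ => y + t • v) '' Icc 0 s ∪ ball (z + s • v) r,
    (isPreconnected_Icc.image _ (by fun_prop)).union (y + s • v) ⟨s, right_mem_Icc.2 hs.le, rfl⟩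
      (by simpa using y2) (convex_ball _ _).isPreconnected, union_subset ?_ hB,
    Or.inl ⟨0, left_mem_Icc.2 hs.le, by simp⟩, Or.inr (mem_ball_self hr)⟩
  rintro _ ⟨t, ht, rfl⟩
  have := (mono y y1).monotoneOn (left_mem_Icc.2 hs.le) ht ht.1
  simp only [zero_smul, add_zero] at this
  exact y3.trans_le this

theorem c1_comp {Q : Set ℂ} (h : IsC1 Q) (z0 : ℂ) : IsC1 (connectedComponentIn Q z0) := by
  obtain ⟨hb, F, hF, rfl, h1⟩ := h
  have ho : IsOpen {z | 0 < F z} := isOpen_lt continuous_const hF.continuous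
  set E := connectedComponentIn {z | 0 < F z} z0 with hE
  have oE : IsOpen E := ho.connectedComponentIn
  have sE : E ⊆ {z | 0 < F z} := connectedComponentIn_subset _ _
  refine c1_of_sm (hb.subset sE) oE ⟨interior {y | y ∈ E ↔ 0 < F y}, F, isOpen_interior,
    fun z hz => ?_, hF.contDiffOn, fun z hz => interior_subset (s := {y | y ∈ E ↔ 0 < F y}) hz,
    fun z _ => h1 z⟩
  have a : F z ≤ 0 := by
    have := P153.TOP.frontier_component_subset ho.isClosed_compl z0
    rw [compl_compl] at this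
    exact not_lt.1 (this hz)
  have b : 0 ≤ F z := closure_lt_subset_le continuous_const hF.continuous
    (closure_mono sE (frontier_subset_closure hz))
  obtain ⟨q, hq⟩ := loc_conn hF (a.antisymm b) (h1 z (a.antisymm b))
  obtain ⟨x, x1, x2⟩ := mem_closure_iff_nhds.1 (frontier_subset_closure hz) _ hq
  obtain ⟨C, c1, c2, c3, c4⟩ := x1 (sE x2)
  have qE : q ∈ E := by
    rw [hE, connectedComponentIn_eq x2]
    exact c1.subset_connectedComponentIn c3 c2 c4
  refine mem_interior_iff_mem_nhds.2 (hq.mono fun y hy => ⟨fun e => sE e, fun e => ?_⟩)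
  obtain ⟨C', d1, d2, d3, d4⟩ := hy e
  rw [hE, connectedComponentIn_eq qE]
  exact d1.subset_connectedComponentIn d4 d2 d3

theorem exists_c1c {K O : Set ℂ} (hK : IsCompact K) (hO : IsOpen O) (hc : IsConnected O)
    (h : K ⊆ O) : ∃ Q, IsConnected Q ∧ IsC1 Q ∧ K ⊆ Q ∧ closure Q ⊆ O := by
  obtain ⟨z, hz⟩ := hc.nonempty
  obtain ⟨L, a, b, c, d, e⟩ := conn_compact hO hc.isPreconnected hK h hz
  obtain ⟨V, v1, v2, v3, -⟩ := exists_open_between_and_isCompact_closure a hO e
  obtain ⟨Q, q1, q2, q3⟩ := P144N.exists_C1 a v1 v2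
  exact ⟨connectedComponentIn Q z, isConnected_connectedComponentIn_iff.2 (q2 c), c1_comp q1 z,
    d.trans (b.subset_connectedComponentIn c q2),
    (closure_mono ((connectedComponentIn_subset _ _).trans q3)).trans v3⟩

end Vale.Agent.N144K
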