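import Vale.Agent.P144D.Tame

/-!
Finitely connected Jordan and Carathéodory domains; conformal covariance.
-/

namespace Vale.Agent.N144K.S

open Set Vale.Agent.P144

/-- A bounded domain: bounded, open, connected. -/
def IsDom (D : Set ℂ) : Prop := Bornology.IsBounded D ∧ IsOpen D ∧ IsConnected D

/-- A bounded domain whose boundary is the union of `k` disjoint simple closed curves. -/
def IsJordan (k : ℕ) (D : Set ℂ) : Prop :=
  IsDom D ∧ ∃ c : Fin k → ℝ → ℂ,
    (∀ i, Continuous (c i) ∧ Function.Periodic (c i) 1 ∧ InjOn (c i) (Ico 0 1)) ∧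
    (∀ i j, i ≠ j → Disjoint (range (c i)) (range (c j))) ∧ frontier D = ⋃ i, range (c i)

/-- A bounded domain whose boundary points are limits of points of `k` open connected sets off the
domain, with pairwise disjoint closures. -/
def IsCara (k : ℕ) (D : Set ℂ) : Prop :=
  IsDom D ∧ ∃ W : Fin k → Set ℂ, (∀ i, IsOpen (W i) ∧ IsPreconnected (W i) ∧ Disjoint (W i) D) ∧
    (∀ i j, i ≠ j → Disjoint (closure (W i)) (closure (W j))) ∧ frontier D ⊆ ⋃ i, closure (W i)

open Classical in
/-- All couplings of the perturbed Hamiltonian are nonnegative. -/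
def Ferro (J lam : ℝ) (V : Finset Site → ℝ) : Prop :=
  ∀ A, 0 ≤ (if IsEdge A then J else 0) + lam * V A

/-- The images of the points under `φ`. -/
def push (φ : ℂ → ℂ) (p : Pts) : Pts := { p with x := fun i => φ (p.x i), y := fun k => φ (p.y k) }

end Vale.Agent.N144K.S
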