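import Vale.Agent.N144K.Main
import Vale.Agent.N144K.Stmt

/-!
The statement for finitely connected Carathéodory domains.
-/

namespace Vale.Agent.N144K.S

open Set Filter Topology Vale.Agent.P144 Vale.Agent.P144Z

theorem fin : ∀ J > 0, ∃ CD : Set ℂ → Option (ℝ → Config) → Pts → ℝ,
    (∀ k D, IsJordan k D → IsCara k D) ∧
    (∀ k D b p, IsCara k D → StdBC b → Good D p → p.m = 0 →
      Lim (crit J D b) p (CD D b p) ∧
      ((b = none ∧ Even p.n ∨ b = some fun _ _ => true) → 0 < CD D b p) ∧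
      ∀ k' D' φ, IsCara k' D' → DifferentiableOn ℂ φ D → BijOn φ D D' →
        CD D b p = (∏ i, ‖deriv φ (p.x i)‖ ^ (1 / 8 : ℝ)) * CD D' b (push φ p)) ∧
    ∀ V, IsPotential V → ∃ lam₀ > 0, ∃ β Z : ℝ → ℝ,
      AnalyticOnNhd ℝ β (Ioo (-lam₀) lam₀) ∧ AnalyticOnNhd ℝ Z (Ioo (-lam₀) lam₀) ∧
      β 0 = Kc / J ∧ Z 0 = 1 ∧
      ∀ lam : ℝ, |lam| < lam₀ → 0 < β lam ∧ 0 < Z lam ∧ (Ferro J lam V →
        (∀ k D b p, IsCara k D → StdBC b → Good D p → p.m = 0 →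
          Lim (inDom J lam V (β lam) D b) p (Z lam ^ p.n * CD D b p)) ∧
        ((∀ A, V A ≠ 0 → A.card = 2) →
          ∀ μ ν, IsPlaneState J lam V (β lam) μ → IsPlaneState J lam V (β lam) ν → μ = ν)) := by
  intro J hJ
  obtain ⟨C, CD, -, -, h3, h4, h⟩ := finK J hJ
  refine ⟨CD, fun k D => (h4.2 k D).1, fun k D b p hD hb hp hm => ?_, fun V hV => ?_⟩
  · obtain ⟨a1, -, a3, a4⟩ := h3 k D b p hb hp (Or.inr ⟨hD, hm⟩)
    refine ⟨a1, a3 hm, fun k' D' φ hD' b1 b2 => (a4 k' D' φ (Or.inr ⟨hD', hm⟩) b1 b2).trans ?_⟩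
    obtain ⟨n, m, x, y, j⟩ := p
    obtain rfl : m = 0 := hm
    simp only [N144J.jac, Finset.univ_eq_empty, Finset.prod_empty, mul_one]
    rfl
  obtain ⟨lam₀, h0, β, Zσ, Zε, a1, a2, -, a4, a5, -, h⟩ := h V hV
  refine ⟨lam₀, h0, β, Zσ, a1, a2, a4, a5, fun lam hl => ?_⟩
  obtain ⟨b1, b2, -, ⟨μ, -, -, -, m4⟩, h⟩ := h lam hl
  refine ⟨b1, b2, fun hf => ⟨fun k D b p hD hb hp hm => ?_, fun hp ν ν' c1 c2 =>
    (m4 hf hp ν c1).trans (m4 hf hp ν' c2).symm⟩⟩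
  simpa only [hm, pow_zero, mul_one] using h k D b p hb hp (Or.inr ⟨hf, hD, hm⟩)

end Vale.Agent.N144K.S
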