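import Vale.Agent.N144K.Base

/-!
A Jordan curve separates the plane; finitely connected Jordan domains.
-/

namespace Vale.Agent.N144K

open Set Filter Topology Metric Vale.Agent.N144J

theorem jct {c : ℝ → ℂ} (hc : Continuous c) (hp : Function.Periodic c 1)
    (hi : InjOn c (Ico 0 1)) : ¬ IsPreconnected (range c)ᶜ := by
  intro h
  have f1 : Fact ((0 : ℝ) < 1) := ⟨one_pos⟩
  have pe : Function.Periodic (fun t : ℝ => Complex.exp (t * (2 * Real.pi * Complex.I))) 1 :=
    fun t => by
      push_cast
      rw [add_mul, one_mul, Complex.exp_add, Complex.exp_two_pi_mul_I, mul_one]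
  have l1 : Continuous (hp.lift : AddCircle (1 : ℝ) → ℂ) := continuous_coinduced_dom.2 hc
  have l2 : Continuous (pe.lift : AddCircle (1 : ℝ) → ℂ) :=
    continuous_coinduced_dom.2 (show Continuous fun t : ℝ =>
      Complex.exp (t * (2 * Real.pi * Complex.I)) by fun_prop)
  have inj : Function.Injective (hp.lift : AddCircle (1 : ℝ) → ℂ) := by
    intro x y e
    obtain ⟨s, hs, rfl⟩ := AddCircle.eq_coe_Ico x
    obtain ⟨t, ht, rfl⟩ := AddCircle.eq_coe_Ico y
    rw [hi hs ht e]
  obtain ⟨F, hF⟩ := ContinuousMap.exists_extension' (l1.isClosedEmbedding inj)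
    (⟨pe.lift, l2⟩ : C(AddCircle (1 : ℝ), ℂ))
  have eF : ∀ t : ℝ, F (c t) = Complex.exp (t * (2 * Real.pi * Complex.I)) := fun t => congrFun hF t
  have hK : IsCompact (range c) := hp.compact_of_continuous one_ne_zero hc
  obtain ⟨R, hR, hb⟩ := hK.isBounded.subset_ball_lt 0 0
  obtain ⟨L, a1, a2, a3, a4, a5⟩ := conn_compact hK.isClosed.isOpen_compl h
    (K := closedBall 0 R ∩ {z | F z = 0})
    ((isCompact_closedBall 0 R).inter_right (isClosed_eq F.continuous continuous_const))
    (by rintro _ hz ⟨t, rfl⟩; exact Complex.exp_ne_zero _ ((eF t).symm.trans hz.2))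
    (compl_subset_compl.2 (hb.trans ball_subset_closedBall) (far_mem hR))
  have hE : IsPreconnected (ball (0 : ℂ) R)ᶜ :=
    (P153.TOP.isPreconnected_compl_closedBall 0 R).subset_closure
      (compl_subset_compl.2 ball_subset_closedBall)
      (by rw [closure_compl, interior_closedBall _ hR.ne'])
  have hA := a2.union _ a3 (compl_subset_compl.2 ball_subset_closedBall (far_mem hR)) hE
  obtain ⟨G, g1, g2⟩ := P153.TOP.logOn_compact_of_noBdd (U := (L ∪ (ball 0 R)ᶜ)ᶜ)
    (a1.isClosed.union isOpen_ball.isClosed_compl).isOpen_compl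
    (fun z hz => ⟨_, hA, not_not.1 hz, by rw [compl_compl], fun b => far_unbounded R
      (b.subset ((compl_subset_compl.2 ball_subset_closedBall).trans subset_union_right))⟩)
    F.continuous.continuousOn (fun z hz e => hz (Or.inl (a4 ⟨ball_subset_closedBall
      (not_not.1 fun n => hz (Or.inr n)), e⟩))) hK
    (fun z hz e => e.elim (fun e => a5 e hz) fun e => e (hb hz))
  have k := P153.TOP.log_diff_const (A := univ) isPreconnected_univ (F := fun t : ℝ => G (c t))
    (G := fun t : ℝ => t * (2 * Real.pi * Complex.I))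
    (g1.comp hc.continuousOn fun t _ => mem_range_self t) (by fun_prop)
    (fun t _ => (g2 _ (mem_range_self t)).trans (eF t)) (mem_univ 0) (mem_univ (0 + 1))
  simp only [hp 0] at k
  push_cast at k
  exact Complex.two_pi_I_ne_zero (by linear_combination k)

theorem IsJordanK.cara {k : ℕ} {D : Set ℂ} (h : IsJordanK k D) : IsCaraK k D := by
  obtain ⟨hD, c, hc, hd, hf⟩ := h
  obtain ⟨z₀, hz₀⟩ := hD.2.2.nonempty
  have cl : ∀ i, IsClosed (range (c i)) := fun i =>
    ((hc i).2.1.compact_of_continuous one_ne_zero (hc i).1).isClosed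
  have sf : ∀ i, range (c i) ⊆ frontier D := fun i => hf ▸ subset_iUnion (fun i => range (c i)) i
  have sD : ∀ i, D ⊆ (range (c i))ᶜ := fun i z hz e => by
    have := sf i e
    rw [hD.2.1.frontier_eq] at this
    exact this.2 hz
  set V := fun i => connectedComponentIn (range (c i))ᶜ z₀ with hV
  have oV : ∀ i, IsOpen (V i) := fun i => (cl i).isOpen_compl.connectedComponentIn
  have DV : ∀ i, D ⊆ V i := fun i =>
    hD.2.2.isPreconnected.subset_connectedComponentIn hz₀ (sD i)
  have ex : ∀ i, ∃ w ∈ (range (c i))ᶜ, w ∉ V i := fun i => by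
    by_contra n
    refine jct (hc i).1 (hc i).2.1 (hc i).2.2 ?_
    rw [Subset.antisymm (fun w hw => by_contra fun m => n ⟨w, hw, m⟩)
      (connectedComponentIn_subset (range (c i))ᶜ z₀)]
    exact isPreconnected_connectedComponentIn
  choose w w1 w2 using ex
  set W := fun i => connectedComponentIn (range (c i))ᶜ (w i) with hW
  have oW : ∀ i, IsOpen (W i) := fun i => (cl i).isOpen_compl.connectedComponentIn
  have sW : ∀ i, W i ⊆ (range (c i))ᶜ := fun i => connectedComponentIn_subset _ _
  have WV : ∀ i, Disjoint (W i) (V i) := fun i => disjoint_left.2 fun z a b => w2 i (by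
    have e := (connectedComponentIn_eq b).trans (connectedComponentIn_eq a).symm
    show w i ∈ connectedComponentIn _ z₀
    rw [e]
    exact mem_connectedComponentIn (w1 i))
  have fW : ∀ i, frontier (W i) ⊆ range (c i) := fun i =>
    P153.TOP.frontier_component_subset (cl i) _
  have fW' : ∀ i, range (c i) ⊆ closure (W i) := fun i =>
    (jordan_frontier (hc i).1 (hc i).2.1 (hc i).2.2 (oW i) ⟨_, mem_connectedComponentIn (w1 i)⟩
      (disjoint_left.2 (sW i)) (fW i)).trans frontier_subset_closure
  have cV : ∀ i j, i ≠ j → range (c j) ⊆ V i := fun i j e z hz => by_contra fun n =>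
    disjoint_left.1 (hd i j e) (P153.TOP.frontier_component_subset (cl i) z₀ (by
      rw [(oV i).frontier_eq]
      exact ⟨closure_mono (DV i) (frontier_subset_closure (sf j hz)), n⟩)) hz
  have WV' : ∀ i j, i ≠ j → W j ⊆ V i := fun i j e => by
    obtain ⟨y, y1, y2⟩ := mem_closure_iff.1 (fW' j (mem_range_self 0)) _ (oV i)
      (cV i j e (mem_range_self 0))
    show W j ⊆ connectedComponentIn _ z₀
    rw [connectedComponentIn_eq y1]
    exact isPreconnected_connectedComponentIn.subset_connectedComponentIn y2 fun z hz m =>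
      disjoint_left.1 (WV j) hz (cV j i e.symm m)
  refine ⟨hD, W, fun i => ⟨oW i, isPreconnected_connectedComponentIn, (WV i).mono_right (DV i)⟩,
    fun i j e => ((WV i).closure_left (oV i)).mono_right ?_, hf ▸ iUnion_mono fW'⟩
  rw [closure_eq_self_union_frontier]
  exact union_subset (WV' i j e) ((fW j).trans (cV i j e))

end Vale.Agent.N144K
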