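import Vale.Agent.N144J.Lev

/-!
The kernel theorem with uniform control of the inverse maps.
-/

namespace Vale.Agent.N144K

open Set Filter Topology Metric Vale.Agent.N144J Vale.Agent.N144.C

/-- The kernel theorem. -/
theorem kernel2 {D : Set ℂ} (hD : IsCara D) : ∃ (l : Filter ℕ) (_ : l.NeBot) (U : ℕ → Set ℂ)
    (G H : ℕ → ℂ → ℂ) (g h : ℂ → ℂ), Bi D (ball 0 1) g h ∧
      (∀ k, Bi (U k) (ball 0 1) (G k) (H k) ∧ closure D ⊆ U k) ∧
      (∀ z ∈ D, Tendsto (fun k => G k z) l (𝓝 (g z)) ∧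
        Tendsto (fun k => deriv (G k) z) l (𝓝 (deriv g z))) ∧
      ∀ C, IsCompact C → C ⊆ ball 0 1 → ∀ V, IsOpen V → MapsTo h C V →
        ∀ᶠ k in l, MapsTo (H k) C V := by
  obtain ⟨hD, W, w1, w2, w3, w4⟩ := hD
  obtain ⟨R, U, hR, hU, hW⟩ := exists_nbhd hD w1 w2 w3
  obtain ⟨z₀, hz₀⟩ := hD.2.2.nonempty
  have DU : ∀ k, D ⊆ U k := fun k => subset_closure.trans (hU k).2.2.1
  choose G H B G0 using fun k => exists_rm (hU k).1 (hU k).2.1 (hU k).2.2.2 (DU k hz₀)
  have hRc : (R : ℂ) ≠ 0 := by exact_mod_cast hR.ne'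
  have Gd : ∀ k, DifferentiableOn ℂ (G k) D := fun k => (B k).fd.mono (DU k)
  obtain ⟨g, hg⟩ := P153.TOP.RMT.exists_limit hD.2.1 (hyperfilter ℕ) G Gd
    fun k z hz => (mem_ball_zero_iff.1 ((B k).fm (DU k hz))).le
  obtain ⟨h', hh'⟩ := P153.TOP.RMT.exists_limit isOpen_ball (hyperfilter ℕ)
    (fun k w => H k w / R) (fun k => (B k).gd.div_const _) fun k w hw => by
      rw [norm_div, Complex.norm_real, Real.norm_eq_abs, abs_of_pos hR, div_le_one hR]
      exact mem_closedBall_zero_iff.1 ((hU k).2.2.2 ((B k).gm hw))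
  have hh : TendstoLocallyUniformlyOn H (fun w => h' w * R) (hyperfilter ℕ : Filter ℕ)
      (ball 0 1) := by
    refine ((uniformContinuous_mul_right' (R : ℂ)).comp_tendstoLocallyUniformlyOn hh').congr
      fun k w _ => ?_
    exact div_mul_cancel₀ _ hRc
  generalize (fun w => h' w * R) = h at hh
  have le : (hyperfilter ℕ : Filter ℕ) ≤ atTop := by
    rw [← Nat.cofinite_eq_atTop]; exact hyperfilter_le_cofinite
  have gd := hg.differentiableOn (.of_forall Gd) hD.2.1
  have hd := hh.differentiableOn (.of_forall fun k => (B k).gd) isOpen_ball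
  have g0 : g z₀ = 0 := tendsto_nhds_unique (hg.tendsto_at hz₀) (by simp [G0])
  have b0 : (0 : ℂ) ∈ ball (0 : ℂ) 1 := mem_ball_self one_pos
  have h0 : h 0 = z₀ := tendsto_nhds_unique (hh.tendsto_at b0) (by
    have : ∀ k, H k 0 = z₀ := fun k => by rw [← G0 k, (B k).li _ (DU k hz₀)]
    simp [this])
  have gm : MapsTo g D (ball 0 1) := fun z hz => by
    by_contra hn
    refine avoid hD.2.1 hD.2.2.isPreconnected hg Gd (w := g z)
      (.of_forall fun k y hy e => hn (e ▸ (B k).fm (DU k hy))) hz₀ (fun e => hn ?_) z hz rfl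
    rw [← e, g0]
    exact b0
  have li : ∀ z ∈ D, h (g z) = z := fun z hz => tendsto_nhds_unique
    (hh.tendsto_comp (hd.continuousOn _ (gm hz)) (gm hz) (tendsto_nhdsWithin_iff.2
      ⟨hg.tendsto_at hz, .of_forall fun k => (B k).fm (DU k hz)⟩))
    (by simp [fun k => (B k).li z (DU k hz)])
  have ho : IsOpen (h '' ball 0 1) := by
    rcases (hd.analyticOnNhd isOpen_ball).is_constant_or_isOpen
      (convex_ball (0 : ℂ) 1).isPreconnected with ⟨w, hw⟩ | e
    · exfalso
      have : D ⊆ {w} := fun z hz => by rw [← li z hz]; exact hw _ (gm hz)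
      exact (infinite_of_mem_nhds z₀ (hD.2.1.mem_nhds hz₀)) ((finite_singleton w).subset this)
    · exact e _ subset_rfl isOpen_ball
  have hdis : Disjoint W (h '' ball 0 1) := by
    refine disjoint_left.2 ?_
    rintro _ hw ⟨y, hy, rfl⟩
    refine avoid isOpen_ball (convex_ball (0 : ℂ) 1).isPreconnected hh (fun k => (B k).gd)
      (w := h y) (((hW _ hw).filter_mono le).mono fun k hk z hz e => hk (e ▸ (B k).gm hz)) b0
      (fun e => disjoint_left.1 w3 hw ?_) y hy rfl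
    rw [← e, h0]
    exact subset_closure hz₀
  have hm : MapsTo h (ball 0 1) D := by
    refine mapsTo_iff_image_subset.2 (((convex_ball (0 : ℂ) 1).isPreconnected.image _
      hd.continuousOn).subset_of_closure_inter_subset hD.2.1 ⟨z₀, ⟨0, b0, h0⟩, hz₀⟩ ?_)
    rintro z ⟨a, b⟩
    by_contra hn
    exact disjoint_left.1 (hdis.closure_left ho) (w4 (by rw [hD.2.1.frontier_eq]; exact ⟨a, hn⟩)) b
  have ri : ∀ w ∈ ball (0 : ℂ) 1, g (h w) = w := fun w hw => tendsto_nhds_unique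
    (hg.tendsto_comp (gd.continuousOn _ (hm hw)) (hm hw) (tendsto_nhdsWithin_iff.2
      ⟨hh.tendsto_at hw, (hh.tendsto_at hw).eventually (hD.2.1.mem_nhds (hm hw))⟩))
    (by simp [fun k => (B k).ri w hw])
  refine ⟨hyperfilter ℕ, inferInstance, U, G, H, g, h,
    ⟨hD.2.1, isOpen_ball, gd, hd, gm, hm, li, ri⟩, fun k => ⟨B k, (hU k).2.2.1⟩,
    fun z hz => ⟨hg.tendsto_at hz, (hg.deriv (.of_forall Gd) hD.2.1).tendsto_at hz⟩,
    fun C hC hs V hV hCV => ?_⟩
  obtain ⟨δ, hδ, hs'⟩ := (hC.image_of_continuousOn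
    (hd.continuousOn.mono hs)).exists_thickening_subset_open hV hCV.image_subset
  filter_upwards [Metric.tendstoUniformlyOn_iff.1
    ((tendstoLocallyUniformlyOn_iff_forall_isCompact isOpen_ball).1 hh _ hs hC) δ hδ]
    with k hk w hw
  exact hs' (mem_thickening_iff.2 ⟨h w, mem_image_of_mem _ hw, by rw [dist_comm]; exact hk w hw⟩)

end Vale.Agent.N144K
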