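import Vale.Agent.N144K.Jct
import Vale.Agent.N144J.Lip

/-!
A domain bounded by finitely many regular `C¹` curves lies locally above a graph of small slope.
-/

namespace Vale.Agent.N144K

open Set Filter Topology Metric Vale.Agent.P144Z Vale.Agent.N144J

/-- A bounded domain whose boundary is the union of `k` disjoint regular `C¹` curves. -/
def IsC1K (k : ℕ) (D : Set ℂ) : Prop :=
  IsDom D ∧ ∃ c : Fin k → ℝ → ℂ,
    (∀ i, (ContDiff ℝ 1 (c i) ∧ ∀ t, deriv (c i) t ≠ 0) ∧ Function.Periodic (c i) 1 ∧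
      InjOn (c i) (Ico 0 1)) ∧
    (∀ i j, i ≠ j → Disjoint (range (c i)) (range (c j))) ∧ frontier D = ⋃ i, range (c i)

theorem loc_lip {D W : Set ℂ} (hD : IsDom D) (w3 : Disjoint W (closure D)) {z u : ℂ}
    (hz : z ∈ frontier D) (w4 : z ∈ closure W) {g : ℝ → ℝ} {ρ : ℝ} (u1 : ‖u‖ = 1) (ρ0 : 0 < ρ)
    (g1 : ∀ x y, |g x - g y| ≤ 1 / 2 * |x - y|) (g2 : g (u * z).re = (u * z).im)
    (g3 : ∀ w : ℂ, |(u * w).re - (u * z).re| < ρ → |(u * w).im - (u * z).im| < ρ →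
      (w ∈ frontier D ↔ g (u * w).re = (u * w).im)) :
    ∃ r > (0 : ℝ), ∃ u : ℂ, ‖u‖ = 1 ∧ ∃ g : ℝ → ℝ, (∀ s t, |g s - g t| ≤ 1 / 2 * |s - t|) ∧
      ∀ w ∈ ball z r, (w ∈ D ↔ g (u * w).re < (u * w).im) := by
  have u0 : u ≠ 0 := fun e => by simp [e] at u1
  have gc : Continuous g := (LipschitzWith.of_dist_le_mul (K := 1 / 2) fun x y => by
    simpa [Real.dist_eq] using g1 x y).continuous
  set x := (u * z).re
  set y := (u * z).im
  have gb : ∀ s ∈ Ioo (x - ρ) (x + ρ), y - ρ < g s ∧ g s < y + ρ := fun s hs => by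
    have a := abs_le.1 (g1 s x)
    have b : |s - x| < ρ := abs_lt.2 ⟨by linarith [hs.1], by linarith [hs.2]⟩
    constructor <;> linarith [a.1, a.2]
  have hP := (Homeomorph.mulLeft₀ u u0).isPreconnected_preimage.2
    (strip_pre gc (continuous_const (y := y + ρ)) fun s hs => (gb s hs).2)
  have hM := (Homeomorph.mulLeft₀ u u0).isPreconnected_preimage.2
    (strip_pre (continuous_const (y := y - ρ)) gc fun s hs => (gb s hs).1)
  have inB : ∀ w ∈ ball z ρ, |(u * w).re - x| < ρ ∧ |(u * w).im - y| < ρ := fun w hw => by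
    rw [mem_ball, dist_eq_norm, ← one_mul ‖_‖, ← u1, ← norm_mul, mul_sub] at hw
    exact ⟨(Complex.abs_re_le_norm _).trans_lt hw, (Complex.abs_im_le_norm _).trans_lt hw⟩
  have side : ∀ S : Set ℂ, IsPreconnected S → (∀ w ∈ S, w ∉ frontier D) → ∀ w ∈ S, w ∈ D → S ⊆ D :=
    fun S h1 h2 w a b => h1.subset_of_closure_inter_subset hD.2.1 ⟨w, a, b⟩ fun v hv => by
      by_contra hn
      exact h2 v hv.2 (by rw [hD.2.1.frontier_eq]; exact ⟨hv.1, hn⟩)
  have up : ∀ v ∈ ball z ρ, ∀ w ∈ ball z ρ, g (u * v).re < (u * v).im →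
      g (u * w).re < (u * w).im → v ∈ D → w ∈ D := fun v hv w hw a b d => by
    have k : ∀ v ∈ ball z ρ, g (u * v).re < (u * v).im → (u * v).re ∈ Ioo (x - ρ) (x + ρ) ∧
        g (u * v).re < (u * v).im ∧ (u * v).im < y + ρ := fun v hv a => by
      have a1 := abs_lt.1 (inB v hv).1
      have a2 := abs_lt.1 (inB v hv).2
      exact ⟨⟨by linarith [a1.1], by linarith [a1.2]⟩, a, by linarith [a2.2]⟩
    refine side _ hP (fun s hs e => ?_) v (k v hv a) d (k w hw b)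
    obtain ⟨s1, s2, s3⟩ : (u * s).re ∈ Ioo (x - ρ) (x + ρ) ∧ g (u * s).re < (u * s).im ∧
      (u * s).im < y + ρ := hs
    exact s2.ne ((g3 s (abs_lt.2 ⟨by linarith [s1.1], by linarith [s1.2]⟩)
      (abs_lt.2 ⟨by linarith [(gb _ s1).1], by linarith⟩)).1 e)
  have dn : ∀ v ∈ ball z ρ, ∀ w ∈ ball z ρ, (u * v).im < g (u * v).re →
      (u * w).im < g (u * w).re → v ∈ D → w ∈ D := fun v hv w hw a b d => by
    have k : ∀ v ∈ ball z ρ, (u * v).im < g (u * v).re → (u * v).re ∈ Ioo (x - ρ) (x + ρ) ∧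
        y - ρ < (u * v).im ∧ (u * v).im < g (u * v).re := fun v hv a => by
      have a1 := abs_lt.1 (inB v hv).1
      have a2 := abs_lt.1 (inB v hv).2
      exact ⟨⟨by linarith [a1.1], by linarith [a1.2]⟩, by linarith [a2.1], a⟩
    refine side _ hM (fun s hs e => ?_) v (k v hv a) d (k w hw b)
    obtain ⟨s1, s2, s3⟩ : (u * s).re ∈ Ioo (x - ρ) (x + ρ) ∧ y - ρ < (u * s).im ∧
      (u * s).im < g (u * s).re := hs
    exact s3.ne' ((g3 s (abs_lt.2 ⟨by linarith [s1.1], by linarith [s1.2]⟩)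
      (abs_lt.2 ⟨by linarith, by linarith [(gb _ s1).2]⟩)).1 e)
  have off : ∀ w ∈ ball z ρ, (w ∈ D ∨ w ∈ W) → g (u * w).re ≠ (u * w).im := fun w hw a e => by
    have b : w ∈ frontier D := (g3 w (inB w hw).1 (inB w hw).2).2 e
    rcases a with a | a
    · rw [hD.2.1.frontier_eq] at b
      exact b.2 a
    · exact disjoint_left.1 w3 a (frontier_subset_closure b)
  obtain ⟨v, v1, v2⟩ := mem_closure_iff.1 (frontier_subset_closure hz) _ isOpen_ball
    (mem_ball_self ρ0)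
  obtain ⟨v', v1', v2'⟩ := mem_closure_iff.1 w4 _ isOpen_ball (mem_ball_self ρ0)
  have nv : v' ∉ D := fun e => disjoint_left.1 w3 v2' (subset_closure e)
  rcases lt_or_gt_of_ne (off v v1 (Or.inl v2)) with a | a
  · refine ⟨ρ, ρ0, u, u1, g, g1, fun w hw => ⟨fun d => ?_, fun e => up v v1 w hw a e v2⟩⟩
    rcases lt_or_gt_of_ne (off w hw (Or.inl d)) with b | b
    · exact b
    · rcases lt_or_gt_of_ne (off v' v1' (Or.inr v2')) with e | e
      exacts [absurd (up v v1 v' v1' a e v2) nv, absurd (dn w hw v' v1' b e d) nv]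
  · refine ⟨ρ, ρ0, -u, by rw [norm_neg, u1], fun s => -g (-s), fun s s' => ?_, fun w hw => ?_⟩
    · have := g1 (-s') (-s)
      rwa [show -s' - -s = s - s' by ring, show g (-s') - g (-s) = -g (-s) - -g (-s') by ring] at this
    · simp only [neg_mul, Complex.neg_re, Complex.neg_im, neg_neg, neg_lt_neg_iff]
      refine ⟨fun d => ?_, fun e => dn v v1 w hw a e v2⟩
      rcases lt_or_gt_of_ne (off w hw (Or.inl d)) with b | b
      · rcases lt_or_gt_of_ne (off v' v1' (Or.inr v2')) with e | e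
        exacts [absurd (up w hw v' v1' b e d) nv, absurd (dn v v1 v' v1' a e v2) nv]
      · exact b

theorem IsC1K.lip {k : ℕ} {D : Set ℂ} (h : IsC1K k D) : IsLip (1 / 2) D := by
  obtain ⟨hD, c, hc, hd, hf⟩ := h
  obtain ⟨-, W, w1, -, w3⟩ := IsJordanK.cara
    ⟨hD, c, fun i => ⟨(hc i).1.1.continuous, (hc i).2⟩, hd, hf⟩
  refine ⟨hD.2.1, hD.1, fun z hz => ?_⟩
  obtain ⟨j, hj⟩ := mem_iUnion.1 (w3 hz)
  obtain ⟨i, t, rfl⟩ := mem_iUnion.1 (hf ▸ hz)
  obtain ⟨u, g, ρ, u1, ρ0, g1, g2, g3⟩ := curve_graph (hc i).1.1 (hc i).2.1 (hc i).2.2 ((hc i).1.2 t)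
  obtain ⟨η, η0, hη⟩ := Metric.eventually_nhds_iff.1 (eventually_all.2 fun j =>
    show ∀ᶠ w in 𝓝 (c i t), i ≠ j → w ∉ range (c j) from by
      by_cases e : i = j
      · exact .of_forall fun _ n => absurd e n
      · exact (((hc j).2.1.compact_of_continuous one_ne_zero
          (hc j).1.1.continuous).isClosed.isOpen_compl.eventually_mem
          (disjoint_left.1 (hd i j e) (mem_range_self t))).mono fun _ a _ => a)
  refine loc_lip hD ((w1 j).2.2.closure_right (w1 j).1) hz hj (ρ := min ρ (η / 2)) u1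
    (by positivity) g1 g2 fun w a b => ?_
  rw [← g3 w (a.trans_le (min_le_left _ _)) (b.trans_le (min_le_left _ _)), hf, mem_iUnion]
  refine ⟨fun ⟨j, e⟩ => ?_, fun e => ⟨i, e⟩⟩
  by_cases e' : i = j
  · exact e' ▸ e
  refine absurd e (hη ?_ j e')
  rw [dist_eq_norm, ← one_mul ‖_‖, ← u1, ← norm_mul, mul_sub]
  have := Complex.norm_le_abs_re_add_abs_im (u * w - u * c i t)
  rw [Complex.sub_re, Complex.sub_im] at this
  linarith [min_le_right ρ (η / 2)]

end Vale.Agent.N144K
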