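import Vale.Agent.N144K.Tr
import Vale.Agent.N144K.Lip

/-!
Universality in regular domains, and of the spin correlations in finitely connected Carathéodory
domains.
-/

namespace Vale.Agent.N144K

open Set Filter Topology Metric Vale.Agent.P144 Vale.Agent.P144Z Vale.Agent.N144 Vale.Agent.N144.C
open Vale.Agent.P144Y (Nice)
open Vale.Agent.P144N Vale.Agent.N144J

variable {J : ℝ} {CD : Set ℂ → BC → Pts → ℝ} {b : BC} {D D' : Set ℂ} {p : Pts} {k k' : ℕ}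

/-- Regular domains. -/
def RegK (D : Set ℂ) : Prop := (∃ k, IsC1K k D) ∨ IsConnected D ∧ IsC1 D

theorem RegK.nice (h : RegK D) (hb : StdBC b) : Nice D b := by
  rcases h with ⟨k, h⟩ | h
  · obtain ⟨h1, h2, h3⟩ := h.lip
    refine ⟨h.1.2.2, Or.inl ⟨Or.inr (Or.inr (Or.inl ⟨h1, h2, fun z hz => ?_⟩)), hb⟩⟩
    obtain ⟨r, hr, u, hu, g, hg, e⟩ := h3 z hz
    exact ⟨r, hr, u, hu, g, fun s t => (hg s t).trans
      (mul_le_mul_of_nonneg_right (by norm_num) (abs_nonneg _)), e⟩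
  · exact nice_c1 h.1 h.2 hb

theorem RegK.isOpen (h : RegK D) : IsOpen D :=
  h.elim (fun ⟨_, h⟩ => h.1.2.1) fun h => c1_open h.2

theorem ball_c1 : IsConnected (ball (0 : ℂ) 1) ∧ IsC1 (ball (0 : ℂ) 1) :=
  ⟨(convex_ball 0 1).isConnected (nonempty_ball.2 one_pos), c1_of_sm isBounded_ball isOpen_ball
    ((sm_disc one_half_pos one_half_lt_one subset_rfl fun _ hz => mem_ball_iff_norm.2 hz.2).mono
      frontier_ball_subset_sphere)⟩

theorem cara (H : Base J CD) (hJ : 0 < J) (hD : IsCaraK k D) : ∃ D' g h, Bi D D' g h ∧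
    (IsConnected D' ∧ IsC1 D') ∧ ∀ b, StdBC b → ∀ p, Good D p → p.m = 0 →
      lim0 J D b p = jac g p * CD D' b (push g p) ∧ Lim (crit J D b) p (lim0 J D b p) ∧
      ∀ lam V β Z, IsPotential V → 0 ≤ β → Ferro J lam V → (∀ Q, IsConnected Q → IsC1 Q →
        Good Q p → Lim (inDom J lam V β Q b) p (Z * CD Q b p)) →
        Lim (inDom J lam V β D b) p (Z * lim0 J D b p) := by
  obtain ⟨D', g, h, B, c1, c2, a⟩ := model H hJ hD
  refine ⟨D', g, h, B, ⟨c1, c2⟩, fun b hb p hp hm => ?_⟩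
  have a' := fun ε hε => (a b hb p hp hm ε hε).imp fun D₁ => Exists.imp fun D₂ h =>
    And.intro h.1 (And.intro h.2.1 (And.intro (subset_closure.trans h.2.2.1)
      (And.intro (subset_closure.trans h.2.2.2.1) h.2.2.2.2)))
  have l := sandwich (Z := 1) pot0 (kc_nonneg hJ) (cf0 hJ) hb hm hD.1 (fun Q h1 h2 h3 => by
    rw [one_mul]; exact lim_of_loc (H.loc Q b (nice_c1 h1 h2 hb)) h3) a'
  rw [one_mul] at l
  have e : lim0 J D b p = jac g p * CD D' b (push g p) := l.limUnder_eq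
  exact ⟨e, e ▸ l, fun lam V β Z hV hβ hf hL => e ▸ sandwich hV hβ hf hb hm hD.1 hL a'⟩

theorem nice_model (H : Base J CD) (hJ : 0 < J) (hb : StdBC b) (hp : Good D p)
    (hD : RegK D ∨ IsCaraK k D ∧ p.m = 0) : ∃ D' g h, Bi D D' g h ∧ Nice D' b ∧
      lim0 J D b p = jac g p * CD D' b (push g p) := by
  rcases hD with r | c
  · refine ⟨D, _, _, bi_id r.isOpen, r.nice hb, ?_⟩
    rw [jac_id, one_mul]
    exact H.lim0 (r.nice hb) hp
  · obtain ⟨D', g, h, B, c1, a⟩ := cara H hJ c.1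
    exact ⟨D', g, h, B, nice_c1 c1.1 c1.2 hb, (a b hb p hp c.2).1⟩

theorem covar (H : Base J CD) (hJ : 0 < J) (hb : StdBC b) (hp : Good D p)
    (hD : RegK D ∨ IsCaraK k D ∧ p.m = 0) (hD' : RegK D' ∨ IsCaraK k' D' ∧ p.m = 0) {φ : ℂ → ℂ}
    (h1 : DifferentiableOn ℂ φ D) (h2 : BijOn φ D D') :
    lim0 J D b p = jac φ p * lim0 J D' b (push φ p) := by
  obtain ⟨Q, g, h, B, n, e⟩ := nice_model H hJ hb hp hD
  obtain ⟨Q', g', h', B', n', e'⟩ := nice_model H hJ hb (good_bij hp h2) hD'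
  obtain ⟨ψ, B''⟩ := exists_bi B.op B'.op h1 h2
  have C := bi_comp (bi_comp B.symm B'') B'
  obtain ⟨a1, a2⟩ := jac_comp (χ := fun z => g' (φ z)) hp B.op B'.op h1 B'.fd h2.mapsTo
    fun _ _ => rfl
  obtain ⟨b1, b2⟩ := jac_comp (χ := fun z => g' (φ z)) (ψ := fun w => g' (φ (h w))) hp B.op B.op'
    B.fd C.fd B.fm fun z hz => by rw [B.li z hz]
  rw [e, e', H.cov _ b n _ (good_bij hp (bij_bi B)) _ _ n' C.fd (bij_bi C), ← mul_assoc,
    ← mul_assoc, ← a1, ← a2, ← b1, ← b2]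

theorem finK : ∀ J > 0, ∃ (C : Pts → ℝ) (CD : Set ℂ → Option (ℝ → Config) → Pts → ℝ),
    (∃ E₀, PlaneFam J 0 (fun _ => 0) (Kc / J) E₀) ∧
    (∀ p, Good univ p → (∀ E₀, PlaneFam J 0 (fun _ => 0) (Kc / J) E₀ → Lim E₀ p (C p)) ∧
      (∀ j, C { p with j := j } = C p) ∧ (p.m = 0 → Even p.n → 0 < C p) ∧
      ∀ w t : ℂ, w ≠ 0 → C p = jac (fun z => w * z + t) p * C (push (fun z => w * z + t) p)) ∧
    (∀ k D b p, StdBC b → Good D p → RegK D ∨ IsCaraK k D ∧ p.m = 0 →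
      Lim (crit J D b) p (CD D b p) ∧ (∀ j, CD D b { p with j := j } = CD D b p) ∧
      (p.m = 0 → (b = none ∧ Even p.n ∨ b = some fun _ _ => true) → 0 < CD D b p) ∧
      ∀ k' D' φ, RegK D' ∨ IsCaraK k' D' ∧ p.m = 0 → DifferentiableOn ℂ φ D → BijOn φ D D' →
        CD D b p = jac φ p * CD D' b (push φ p)) ∧
    (RegK (ball 0 1) ∧ ∀ k D, (IsJordanK k D → IsCaraK k D) ∧ (IsCaraK k D → ∃ (D' : Set ℂ)
      (φ : ℂ → ℂ), RegK D' ∧ (k = 1 → D' = ball 0 1) ∧ DifferentiableOn ℂ φ D ∧ BijOn φ D D')) ∧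
    ∀ V, IsPotential V → ∃ lam₀ > 0, ∃ β Zσ Zε : ℝ → ℝ,
      AnalyticOnNhd ℝ β (Ioo (-lam₀) lam₀) ∧ AnalyticOnNhd ℝ Zσ (Ioo (-lam₀) lam₀) ∧
      AnalyticOnNhd ℝ Zε (Ioo (-lam₀) lam₀) ∧ β 0 = Kc / J ∧ Zσ 0 = 1 ∧ Zε 0 = 1 ∧
      ∀ lam : ℝ, |lam| < lam₀ → 0 < β lam ∧ 0 < Zσ lam ∧ 0 < Zε lam ∧
        (∃ μ, IsPlaneState J lam V (β lam) μ ∧ IsTorusState J lam V (β lam) μ ∧
          (∀ p, Good univ p → Lim (famOf μ) p (Zσ lam ^ p.n * Zε lam ^ p.m * C p)) ∧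
          (Ferro J lam V → (∀ A, V A ≠ 0 → A.card = 2) →
            ∀ ν, IsPlaneState J lam V (β lam) ν → ν = μ)) ∧
        ∀ k D b p, StdBC b → Good D p → RegK D ∨ Ferro J lam V ∧ IsCaraK k D ∧ p.m = 0 →
          Lim (inDom J lam V (β lam) D b) p (Zσ lam ^ p.n * Zε lam ^ p.m * CD D b p) := by
  intro J hJ
  obtain ⟨C, CD, h1, -, h3, h4, h⟩ := WL.fin4 J hJ
  have H : Base J CD := ⟨fun D b hD => (h4 D b hD).1,
    fun D b hD p hp D' φ => ((h4 D b hD).2 p hp).2.2.2 D' φ⟩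
  refine ⟨C, lim0 J, h1, fun p hp => ⟨(h3 p hp).1, (h3 p hp).2.1, (h3 p hp).2.2.1,
    fun w t hw => ?_⟩, fun k D b p hb hp hD => ⟨?_, fun j => ?_, fun hm hb' => ?_,
      fun k' D' φ hD' => covar H hJ hb hp hD hD'⟩,
    ⟨Or.inr ball_c1, fun k D => ⟨IsJordanK.cara, fun hD => ?_⟩⟩, fun V hV => ?_⟩
  · have d : ∀ z, deriv (fun z => w * z + t) z = w := fun z => by simp
    rw [(h3 p hp).2.2.2 w t hw]
    simp only [jac, d, Finset.prod_const, Finset.card_univ, Fintype.card_fin, push]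
  · rcases hD with r | c
    · rw [H.lim0 (r.nice hb) hp]
      exact lim_of_loc (H.loc D b (r.nice hb)) hp
    · obtain ⟨_, g, h, -, -, a⟩ := cara H hJ c.1
      exact (a b hb p hp c.2).2.1
  · rcases hD with r | c
    · rw [H.lim0 (r.nice hb) hp, H.lim0 (p := { p with j := j }) (r.nice hb) hp]
      exact ((h4 D b (r.nice hb)).2 p hp).2.1 j
    · obtain ⟨n, m, x, y, j'⟩ := p
      obtain rfl : m = 0 := c.2
      rw [Subsingleton.elim j j']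
  · obtain ⟨Q, g, h, B, n, e⟩ := nice_model H hJ hb hp hD
    rw [e]
    exact mul_pos (mul_pos
      (Finset.prod_pos fun i _ => Real.rpow_pos_of_pos (norm_pos_iff.2 (B.ne (hp.2.1 i))) _)
      (Finset.prod_pos fun i _ => norm_pos_iff.2 (B.ne (hp.2.2.1 i))))
      (((h4 _ b n).2 _ (good_bij hp (bij_bi B))).2.2.1 hm hb')
  · by_cases e : k = 1
    · subst e
      obtain ⟨φ, a⟩ := hD.disc
      exact ⟨_, φ, Or.inr ball_c1, fun _ => rfl, a⟩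
    · obtain ⟨Q, g, h, B, c, -⟩ := cara H hJ hD
      exact ⟨Q, g, Or.inr c, fun e' => absurd e' e, B.fd, bij_bi B⟩
  obtain ⟨lam₀, h0, β, Zσ, Zε, a1, a2, a3, a4, a5, a6, h⟩ := h (1 / 2) (by norm_num) V hV
  refine ⟨lam₀, h0, β, Zσ, Zε, a1, a2, a3, a4, a5, a6, fun lam hl => ?_⟩
  obtain ⟨b1, b2, b3, ⟨μ, m1, m2, m3, -⟩, h⟩ := h lam hl
  have L : ∀ D b, StdBC b → RegK D → LocLim D (inDom J lam V (β lam) D b)
      fun p => Zσ lam ^ p.n * Zε lam ^ p.m * CD D b p := fun D b hb r =>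
    ((h D b (r.elim (fun ⟨_, r⟩ => Or.inr ⟨r.lip, hb⟩) fun r =>
      Or.inl ⟨Or.inl r.2, Or.inl hb⟩)).2.2.1 (r.nice hb)).1
  refine ⟨b1, b2, b3, ⟨μ, m1, m2, m3, fun hf hp ν hν => plane_unique hV b1.le hf hp
    (fun x ε hε => mag_small H (L _ _ (Or.inr (Or.inl rfl)) (Or.inr ball_c1)) x hε) hν m1⟩,
    fun k D b p hb hp hD => ?_⟩
  rcases hD with r | ⟨hf, c, hm⟩
  · rw [H.lim0 (r.nice hb) hp]
    exact lim_of_loc (L D b hb r) hp
  · obtain ⟨_, g, h, -, -, a⟩ := cara H hJ c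
    exact (a b hb p hp hm).2.2 lam V _ _ hV b1.le hf fun Q q1 q2 q3 =>
      lim_of_loc (L Q b hb (Or.inr ⟨q1, q2⟩)) q3

end Vale.Agent.N144K
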