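import Vale.Agent.N144K.C1
import Vale.Agent.N144J.Lev

/-!
Transport of domains with partly regular boundary under conformal maps.
-/

namespace Vale.Agent.N144K

open Set Filter Topology Metric Vale.Agent.N144J Vale.Agent.N144.C Vale.Agent.P144Z

variable {U U' A D S : Set ℂ} {φ ψ : ℂ → ℂ}

theorem img_iff (B : Bi U U' φ ψ) (hA : A ⊆ U) {w : ℂ} : w ∈ φ '' A ↔ w ∈ U' ∧ ψ w ∈ A :=
  ⟨by rintro ⟨z, hz, rfl⟩; exact ⟨B.fm (hA hz), by rwa [B.li z (hA hz)]⟩,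
    fun h => ⟨ψ w, h.2, B.ri w h.1⟩⟩

theorem img_open (B : Bi U U' φ ψ) (hA : A ⊆ U) (ho : IsOpen A) : IsOpen (φ '' A) := by
  have : φ '' A = U' ∩ ψ ⁻¹' A := Set.ext fun _ => img_iff B hA
  rw [this]
  exact B.gd.continuousOn.isOpen_inter_preimage B.op' ho

theorem cl_img (B : Bi U U' φ ψ) {z : ℂ} (hz : z ∈ U) (h : z ∈ closure A) :
    φ z ∈ closure (φ '' A) :=
  (B.fd.continuousOn.continuousAt (B.op.mem_nhds hz)).continuousWithinAt.mem_closure_image h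

theorem img_cl (B : Bi U U' φ ψ) (hA : A ⊆ U) {w : ℂ} (hw : w ∈ U') (h : w ∈ closure (φ '' A)) :
    ψ w ∈ closure A :=
  closure_mono (by rintro _ ⟨v, hv, rfl⟩; exact ((img_iff B hA).1 hv).2) (cl_img B.symm hw h)

theorem bi_sub (B : Bi U U' φ ψ) (hA : A ⊆ U) (ho : IsOpen A) : Bi A (φ '' A) φ ψ :=
  ⟨ho, img_open B hA ho, B.fd.mono hA, B.gd.mono fun _ hw => ((img_iff B hA).1 hw).1,
    mapsTo_image _ _, fun _ hw => ((img_iff B hA).1 hw).2, fun z hz => B.li z (hA hz),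
    fun w hw => B.ri w ((img_iff B hA).1 hw).1⟩

theorem cl_sub (B : Bi U U' φ ψ) (hb : Bornology.IsBounded A) (hA : closure A ⊆ U) :
    closure (φ '' A) ⊆ φ '' closure A :=
  closure_minimal (image_mono subset_closure)
    (hb.isCompact_closure.image_of_continuousOn (B.fd.continuousOn.mono hA)).isClosed

theorem Sm.mono {S' : Set ℂ} (h : Sm D S) (hs : S' ⊆ S) : Sm D S' := by
  obtain ⟨N, F, a, b, c⟩ := h
  exact ⟨N, F, a, hs.trans b, c⟩

theorem Sm.map (B : Bi U U' φ ψ) (hD : D ⊆ U) (hS : S ⊆ U) (h : Sm D S) :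
    Sm (φ '' D) (φ '' S) := by
  obtain ⟨N, F, a, b, c, d, e⟩ := h
  have k : ∀ w ∈ φ '' (N ∩ U), w ∈ U' ∧ ψ w ∈ N := fun w hw =>
    ⟨((img_iff B inter_subset_right).1 hw).1, ((img_iff B inter_subset_right).1 hw).2.1⟩
  refine ⟨φ '' (N ∩ U), fun w => F (ψ w), img_open B inter_subset_right (a.inter B.op),
    image_mono (subset_inter b hS), fun w hw => ?_, fun w hw => ?_, fun w hw h0 h1 => ?_⟩
  · exact (((c _ (k w hw).2).contDiffAt (a.mem_nhds (k w hw).2)).comp w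
      (((B.gd.analyticAt (B.op'.mem_nhds (k w hw).1)).contDiffAt (n := 1)).restrict_scalars
        ℝ)).contDiffWithinAt
  · rw [img_iff B hD, d _ (k w hw).2]
    exact and_iff_right (k w hw).1
  · refine e _ (k w hw).2 h0 ?_
    have d1 := (((c _ (k w hw).2).contDiffAt (a.mem_nhds (k w hw).2)).differentiableAt
      one_ne_zero).hasFDerivAt.comp w ((B.symm.der (k w hw).1).hasFDerivAt.restrictScalars ℝ)
    have e1 := d1.fderiv.symm.trans h1
    ext v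
    have := congrArg (fun L : ℂ →L[ℝ] ℝ => L (v / deriv ψ w)) e1
    simpa [div_mul_cancel₀ _ (B.symm.ne (k w hw).1)] using this

theorem Sm.union {S₁ S₂ O₁ O₂ : Set ℂ} (h1 : Sm D S₁) (h2 : Sm D S₂) (o1 : IsOpen O₁)
    (o2 : IsOpen O₂) (s1 : S₁ ⊆ O₁) (s2 : S₂ ⊆ O₂) (hd : Disjoint O₁ O₂) : Sm D (S₁ ∪ S₂) := by
  classical
  obtain ⟨N, F, a, b, c, d, e⟩ := h1
  obtain ⟨N', F', a', b', c', d', e'⟩ := h2
  have k1 : ∀ z ∈ O₁, O₁.piecewise F F' =ᶠ[𝓝 z] F := fun z hz =>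
    (o1.eventually_mem hz).mono fun y hy => piecewise_eq_of_mem _ _ _ hy
  have k2 : ∀ z ∈ O₂, O₁.piecewise F F' =ᶠ[𝓝 z] F' := fun z hz =>
    (o2.eventually_mem hz).mono fun y hy =>
      piecewise_eq_of_notMem _ _ _ (disjoint_right.1 hd hy)
  refine ⟨N ∩ O₁ ∪ N' ∩ O₂, O₁.piecewise F F', (a.inter o1).union (a'.inter o2),
    union_subset_union (subset_inter b s1) (subset_inter b' s2), ?_, ?_, ?_⟩
  · rintro z (hz | hz)
    · exact (((c z hz.1).contDiffAt (a.mem_nhds hz.1)).congr_of_eventuallyEq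
        (k1 z hz.2)).contDiffWithinAt
    · exact (((c' z hz.1).contDiffAt (a'.mem_nhds hz.1)).congr_of_eventuallyEq
        (k2 z hz.2)).contDiffWithinAt
  · rintro z (hz | hz)
    · rw [(k1 z hz.2).self_of_nhds]; exact d z hz.1
    · rw [(k2 z hz.2).self_of_nhds]; exact d' z hz.1
  · rintro z (hz | hz)
    · rw [(k1 z hz.2).self_of_nhds, (k1 z hz.2).fderiv_eq]; exact e z hz.1
    · rw [(k2 z hz.2).self_of_nhds, (k2 z hz.2).fderiv_eq]; exact e' z hz.1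

theorem c1_img (B : Bi U U' φ ψ) (h : IsC1 A) (hA : closure A ⊆ U) : IsC1 (φ '' A) := by
  have ho : IsOpen A := by
    obtain ⟨-, F, hF, rfl, -⟩ := h
    exact isOpen_lt continuous_const hF.continuous
  have hU : A ⊆ U := subset_closure.trans hA
  have s : Sm A (frontier A) := by
    obtain ⟨-, F, hF, rfl, e⟩ := h
    exact ⟨univ, F, isOpen_univ, subset_univ _, hF.contDiffOn, fun _ _ => Iff.rfl, fun z _ => e z⟩
  refine c1_of_sm ((h.1.isCompact_closure.image_of_continuousOn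
    (B.fd.continuousOn.mono hA)).isBounded.subset (image_mono subset_closure)) (img_open B hU ho)
    ((s.map B hU (frontier_subset_closure.trans hA)).mono fun w hw => ?_)
  rw [(img_open B hU ho).frontier_eq] at hw
  obtain ⟨z, hz, rfl⟩ := cl_sub B h.1 hA hw.1
  exact ⟨z, by rw [ho.frontier_eq]; exact ⟨hz, fun e => hw.2 ⟨z, e, rfl⟩⟩, rfl⟩

theorem annulus (c : ℂ) {r s : ℝ} (hr : 0 ≤ r) :
    IsPreconnected {z : ℂ | r < ‖z - c‖ ∧ ‖z - c‖ < s} := by
  have : {z : ℂ | r < ‖z - c‖ ∧ ‖z - c‖ < s} =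
      (fun q : ℝ × ℝ => circleMap c q.1 q.2) '' (Ioo r s ×ˢ univ) := by
    ext z
    constructor
    · intro hz
      refine ⟨(‖z - c‖, (z - c).arg), ⟨hz, trivial⟩, ?_⟩
      simp [circleMap, Complex.norm_mul_exp_arg_mul_I]
    · rintro ⟨q, hq, rfl⟩
      have : ‖circleMap c q.1 q.2 - c‖ = q.1 := by
        rw [circleMap_sub_center, norm_circleMap_zero, abs_of_pos (hr.trans_lt hq.1.1)]
      simp only [mem_ofPred_eq, this]
      exact hq.1
  rw [this]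
  exact (isPreconnected_Ioo.prod isPreconnected_univ).image _ (by unfold circleMap; fun_prop)

theorem pre_diff {W : Set ℂ} (ho : IsOpen W) (hc : IsPreconnected W) (a : ℂ) :
    IsPreconnected (W \ {a}) := by
  by_cases ha : a ∈ W
  swap
  · rwa [sdiff_singleton_eq_self ha]
  obtain ⟨r, hr, hB⟩ := Metric.isOpen_iff.1 ho a ha
  have hA := annulus a (r := 0) (s := r) le_rfl
  have sA : {z : ℂ | 0 < ‖z - a‖ ∧ ‖z - a‖ < r} ⊆ W \ {a} := fun z hz =>
    ⟨hB (mem_ball_iff_norm.2 hz.2), sub_ne_zero.1 (norm_pos_iff.1 hz.1)⟩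
  have key : ∀ u v : Set ℂ, IsOpen u → IsOpen v → W \ {a} ⊆ u ∪ v → (W \ {a} ∩ v).Nonempty →
      ¬ (W \ {a} ∩ (u ∩ v)).Nonempty → {z : ℂ | 0 < ‖z - a‖ ∧ ‖z - a‖ < r} ⊆ u → False := by
    intro u v hu hv hs hn hd hsub
    obtain ⟨z, z1, z2, z3⟩ := hc (u ∪ ball a r) (v \ {a}) (hu.union isOpen_ball)
      (hv.sdiff isClosed_singleton) (fun z hz => by
        by_cases e : z = a
        · exact Or.inl (Or.inr (e ▸ mem_ball_self hr))
        · exact (hs ⟨hz, e⟩).imp Or.inl fun h => ⟨h, e⟩) ⟨a, ha, Or.inr (mem_ball_self hr)⟩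
      (hn.mono fun z hz => ⟨hz.1.1, hz.2, hz.1.2⟩)
    exact hd ⟨z, ⟨z1, z3.2⟩, z2.elim id fun h => hsub
      ⟨norm_pos_iff.2 (sub_ne_zero.2 z3.2), mem_ball_iff_norm.1 h⟩, z3.1⟩
  intro u v hu hv hs n1 n2
  by_contra hd
  rcases (isPreconnected_iff_subset_of_disjoint.1 hA) u v hu hv (sA.trans hs)
    (not_nonempty_iff_eq_empty.1 fun h => hd (h.mono (inter_subset_inter_left _ sA))) with h | h
  · exact key u v hu hv hs n2 hd h
  · exact key v u hv hu (by rwa [union_comm]) n1 (by rwa [inter_comm v]) h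

variable {ι : Type} {s t : Finset ι} {W : ι → Set ℂ}

/-- A domain whose boundary is regular near `S`, with the remaining holes `W i`. -/
structure St (D : Set ℂ) (s : Finset ι) (W : ι → Set ℂ) (S : Set ℂ) : Prop where
  dom : IsDom D
  op : ∀ i ∈ s, IsOpen (W i)
  pc : ∀ i ∈ s, IsPreconnected (W i)
  dj : ∀ i ∈ s, Disjoint (W i) D
  ne : ∀ i ∈ s, ∃ z ∈ closure D, z ∈ closure (W i)
  pw : ∀ i ∈ s, ∀ j ∈ s, i ≠ j → Disjoint (W i) (W j)
  pw' : ∀ i ∈ s, ∀ j ∈ s, i ≠ j → ∀ z ∈ closure D, z ∈ closure (W i) → z ∉ closure (W j)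
  cS : IsCompact S
  sD : S ⊆ closure D
  dS : ∀ i ∈ s, ∀ z ∈ S, z ∉ closure (W i)
  sm : Sm D S
  fr : ∀ z ∈ frontier D, z ∈ S ∨ ∃ i ∈ s, z ∈ closure (W i)

theorem St.diff (h : St D s W S) {a : ℂ} (ha : a ∉ closure D) : St D s (fun i => W i \ {a}) S := by
  have k : ∀ i, ∀ z ∈ closure D, z ∈ closure (W i) → z ∈ closure (W i \ {a}) := fun i z hz hw =>
    (isOpen_compl_singleton (x := a)).closure_inter ⟨hw, fun e : z = a => ha (e ▸ hz)⟩
  exact ⟨h.dom, fun i hi => (h.op i hi).sdiff isClosed_singleton,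
    fun i hi => pre_diff (h.op i hi) (h.pc i hi) a, fun i hi => (h.dj i hi).mono_left sdiff_subset,
    fun i hi => (h.ne i hi).imp fun z hz => ⟨hz.1, k i z hz.1 hz.2⟩,
    fun i hi j hj e => (h.pw i hi j hj e).mono sdiff_subset sdiff_subset,
    fun i hi j hj e z hz a b => h.pw' i hi j hj e z hz (closure_mono sdiff_subset a)
      (closure_mono sdiff_subset b), h.cS, h.sD,
    fun i hi z hz a => h.dS i hi z hz (closure_mono sdiff_subset a), h.sm,
    fun z hz => (h.fr z hz).imp_right fun ⟨i, hi, e⟩ =>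
      ⟨i, hi, k i z (frontier_subset_closure hz) e⟩⟩

theorem St.map (h : St D s W S) (B : Bi U U' φ ψ) (ht : t ⊆ s) (hD : D ⊆ U) (hS : S ⊆ U)
    (hW : ∀ j ∈ t, W j ⊆ U) (hne : ∀ j ∈ t, ∀ z ∈ closure D, z ∈ closure (W j) → z ∈ U)
    (hb : Bornology.IsBounded (φ '' D))
    (hc : ∀ j ∈ t, ∀ w ∈ closure (φ '' D), w ∈ closure (φ '' W j) → w ∈ U')
    (hs : ∀ i ∈ s, i ∉ t → ∀ z ∈ closure (W i), z ∉ U) {S' : Set ℂ} (c1 : IsCompact S')
    (c2 : S' ⊆ closure (φ '' D)) (c3 : ∀ w ∈ S', w ∉ U') (c4 : Sm (φ '' D) (φ '' S ∪ S'))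
    (c5 : ∀ w ∈ closure (φ '' D), w ∉ U' → w ∈ S') :
    St (φ '' D) t (fun j => φ '' W j) (φ '' S ∪ S') := by
  have ho := img_open B hD h.dom.2.1
  refine ⟨⟨hb, ho, h.dom.2.2.image _ (B.fd.continuousOn.mono hD)⟩,
    fun i hi => img_open B (hW i hi) (h.op i (ht hi)),
    fun i hi => (h.pc i (ht hi)).image _ (B.fd.continuousOn.mono (hW i hi)),
    fun i hi => disjoint_image_image fun x hx y hy e => disjoint_left.1 (h.dj i (ht hi)) hx
      (B.inj (hW i hi hx) (hD hy) e ▸ hy), fun i hi => ?_,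
    fun i hi j hj e => disjoint_image_image fun x hx y hy e' =>
      disjoint_left.1 (h.pw i (ht hi) j (ht hj) e) hx (B.inj (hW i hi hx) (hW j hj hy) e' ▸ hy),
    fun i hi j hj e w hw a b => ?_,
    (h.cS.image_of_continuousOn (B.fd.continuousOn.mono hS)).union c1,
    union_subset (by rintro _ ⟨z, hz, rfl⟩; exact cl_img B (hS hz) (h.sD hz)) c2,
    fun i hi w hw a => ?_, c4, fun w hw => ?_⟩
  · obtain ⟨z, z1, z2⟩ := h.ne i (ht hi)
    exact ⟨φ z, cl_img B (hne i hi z z1 z2) z1, cl_img B (hne i hi z z1 z2) z2⟩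
  · have m := hc i hi w hw a
    exact h.pw' i (ht hi) j (ht hj) e _ (img_cl B hD m hw) (img_cl B (hW i hi) m a)
      (img_cl B (hW j hj) m b)
  · rcases hw with hw | hw
    · rw [img_iff B hS] at hw
      exact h.dS i (ht hi) _ hw.2 (img_cl B (hW i hi) hw.1 a)
    · exact c3 w hw (hc i hi w (c2 hw) a)
  · rw [ho.frontier_eq] at hw
    by_cases m : w ∈ U'
    swap
    · exact Or.inl (Or.inr (c5 w hw.1 m))
    rcases h.fr (ψ w) (by
      rw [h.dom.2.1.frontier_eq]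
      exact ⟨img_cl B hD m hw.1, fun e => hw.2 ((img_iff B hD).2 ⟨m, e⟩)⟩) with e | ⟨i, hi, e⟩
    · exact Or.inl (Or.inl ((img_iff B hS).2 ⟨m, e⟩))
    · refine Or.inr ⟨i, by_contra fun n => hs i hi n _ e (B.gm m), ?_⟩
      have := cl_img B (B.gm m) e
      rwa [B.ri w m] at this

end Vale.Agent.N144K
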