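import Vale.Agent.N144K.Map
import Vale.Agent.N144K.Ker

/-!
One boundary component after the other is made regular.
-/

namespace Vale.Agent.N144K

open Set Filter Topology Metric Vale.Agent.N144J Vale.Agent.N144.C Vale.Agent.P144Z

variable {ι : Type} {s : Finset ι} {W : ι → Set ℂ} {D S : Set ℂ}

/-- `φ` is a limit of conformal maps defined near the closure of `D`. -/
def Apx (D D' : Set ℂ) (φ : ℂ → ℂ) : Prop :=
  ∃ (l : Filter ℕ) (_ : l.NeBot) (U U' : ℕ → Set ℂ) (G H : ℕ → ℂ → ℂ),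
    (∀ k, Bi (U k) (U' k) (G k) (H k) ∧ closure D ⊆ U k) ∧
    (∀ z ∈ D, Tendsto (fun k => G k z) l (𝓝 (φ z)) ∧
      Tendsto (fun k => deriv (G k) z) l (𝓝 (deriv φ z))) ∧
    (∀ O, IsOpen O → closure D' ⊆ O → ∀ᶠ k in l, MapsTo (G k) (closure D) O) ∧
    ∀ L, IsCompact L → L ⊆ D' → ∀ᶠ k in l, L ⊆ U' k ∧ MapsTo (H k) L D

theorem bi_inv (a : ℂ) : Bi {a}ᶜ {0}ᶜ (fun z => (z - a)⁻¹) fun w => w⁻¹ + a :=
  ⟨isOpen_compl_singleton, isOpen_compl_singleton,
    (differentiableOn_id.sub_const a).inv fun _ hz => sub_ne_zero.2 hz,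
    (differentiableOn_id.inv fun _ hz => hz).add_const a,
    fun _ hz => inv_ne_zero (sub_ne_zero.2 hz),
    fun w hw e => inv_ne_zero (show w ≠ 0 from hw) (add_eq_right.1 e),
    fun z _ => by simp, fun w _ => by simp⟩

theorem apx_of_bi {U U' : Set ℂ} {φ ψ : ℂ → ℂ} (B : Bi U U' φ ψ) (hD : closure D ⊆ U) :
    Apx D (φ '' D) φ :=
  ⟨atTop, inferInstance, fun _ => U, fun _ => U', fun _ => φ, fun _ => ψ, fun _ => ⟨B, hD⟩,
    fun _ _ => ⟨tendsto_const_nhds, tendsto_const_nhds⟩,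
    fun _ _ hO => .of_forall fun _ _ hz => hO (cl_img B (hD hz) hz),
    fun _ _ hL => .of_forall fun _ =>
      ⟨fun _ hw => ((img_iff B (subset_closure.trans hD)).1 (hL hw)).1,
        fun _ hw => ((img_iff B (subset_closure.trans hD)).1 (hL hw)).2⟩⟩

/-- Inversion in a point of a hole. -/
theorem St.inv (h : St D s W S) {i : ι} (hi : i ∈ s) : ∃ D' W' S' φ ψ, St D' s W' S' ∧
    Bi D D' φ ψ ∧ Apx D D' φ ∧ (S = ∅ → S' = ∅) ∧ ∃ R : ℝ, (closedBall 0 R)ᶜ ⊆ W' i := by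
  obtain ⟨z, -, hz⟩ := h.ne i hi
  obtain ⟨a, ha⟩ := closure_nonempty_iff.1 ⟨z, hz⟩
  have aD : a ∉ closure D := disjoint_left.1 ((h.dj i hi).closure_right (h.op i hi)) ha
  have B := bi_inv a
  have cU : closure D ⊆ {a}ᶜ := fun z hz e => aD (e ▸ hz)
  have DU : D ⊆ {a}ᶜ := subset_closure.trans cU
  have cl := cl_sub B h.dom.1 cU
  have cU' : ∀ w ∈ closure ((fun z => (z - a)⁻¹) '' D), w ∈ ({0}ᶜ : Set ℂ) := fun w hw => by
    obtain ⟨z, hz, rfl⟩ := cl hw
    exact B.fm (cU hz)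
  refine ⟨_, _, _, _, _, (h.diff aD).map B subset_rfl DU (h.sD.trans cU) (fun _ _ _ hz => hz.2)
    (fun _ _ _ hz _ => cU hz) ((h.dom.1.isCompact_closure.image_of_continuousOn
      (B.fd.continuousOn.mono cU)).isBounded.subset (image_mono subset_closure))
    (fun _ _ w hw _ => cU' w hw) (fun _ a b => absurd a b) isCompact_empty (empty_subset _)
    (fun _ hw => hw.elim) (by rw [union_empty]; exact h.sm.map B DU (h.sD.trans cU))
    (fun w hw n => absurd (cU' w hw) n), bi_sub B DU h.dom.2.1, apx_of_bi B cU,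
    fun e => by simp [e], ?_⟩
  obtain ⟨r, hr, hB⟩ := Metric.isOpen_iff.1 (h.op i hi) a ha
  refine ⟨r⁻¹, fun w hw => ?_⟩
  rw [mem_compl_iff, mem_closedBall_zero_iff, not_le] at hw
  have w0 : w ≠ 0 := norm_pos_iff.1 ((inv_pos.2 hr).trans hw)
  refine (img_iff B fun _ hz => hz.2).2 ⟨w0, hB ?_, B.gm w0⟩
  rw [mem_ball_iff_norm, add_sub_cancel_right, norm_inv]
  exact inv_lt_of_inv_lt₀ hr hw

theorem sm_disc {D' : Set ℂ} {τ : ℝ} (h0 : 0 < τ) (h1 : τ < 1) (hs : D' ⊆ ball 0 1)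
    (hA : {z : ℂ | τ < ‖z - 0‖ ∧ ‖z - 0‖ < 1} ⊆ D') : Sm D' (sphere 0 1) := by
  refine ⟨{z | τ < ‖z‖}, fun z => 1 - ‖z‖ ^ 2, isOpen_lt continuous_const continuous_norm,
    fun z hz => ?_, (contDiff_const.sub (contDiff_norm_sq ℝ)).contDiffOn, fun z hz => ?_,
    fun z hz e => ?_⟩
  · rw [mem_sphere_zero_iff_norm] at hz
    show τ < ‖z‖
    rwa [hz]
  · replace hz : τ < ‖z‖ := hz
    constructor
    · intro e
      nlinarith [mem_ball_zero_iff.1 (hs e), norm_nonneg z]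
    · intro e
      exact hA ⟨by rwa [sub_zero], by rw [sub_zero]; nlinarith [norm_nonneg z]⟩
  · rw [((hasStrictFDerivAt_norm_sq z).hasFDerivAt.const_sub 1).fderiv]
    intro e'
    have := congrArg (fun L : ℂ →L[ℝ] ℝ => L z) e'
    simp at this
    simp [this] at e

/-- The Riemann map of the outer contour. -/
theorem St.rm [DecidableEq ι] (h : St D s W S) {i : ι} (hi : i ∈ s) {R : ℝ}
    (hW : (closedBall 0 R)ᶜ ⊆ W i) : ∃ D' W' S' φ ψ, St D' (s.erase i) W' S' ∧
    Bi D D' φ ψ ∧ Apx D D' φ ∧ (S = ∅ → s.erase i = ∅ → D' = ball 0 1) := by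
  obtain ⟨z₀, hz₀⟩ := h.dom.2.2.nonempty
  have dD : D ⊆ (closure (W i))ᶜ :=
    disjoint_right.1 ((h.dj i hi).closure_left h.dom.2.1)
  set E := connectedComponentIn (closure (W i))ᶜ z₀ with hE
  have oE : IsOpen E := isClosed_closure.isOpen_compl.connectedComponentIn
  have sE : E ⊆ (closure (W i))ᶜ := connectedComponentIn_subset _ _
  have DE : D ⊆ E := h.dom.2.2.isPreconnected.subset_connectedComponentIn hz₀ dD
  have fE : frontier E ⊆ closure (W i) := P153.TOP.frontier_component_subset isClosed_closure _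
  have cE : IsCara E := ⟨⟨isBounded_closedBall.subset fun z hz => by_contra fun n =>
      sE hz (subset_closure (hW n)), oE, isConnected_connectedComponentIn_iff.2 (dD hz₀)⟩, W i,
    h.pc i hi, fun b => far_unbounded R (b.subset hW), Disjoint.closure_right
      (disjoint_left.2 fun z a b => sE b (subset_closure a)) (h.op i hi), fE⟩
  have key : ∀ z ∈ closure D, z ∉ closure (W i) → z ∈ E := fun z hz n => by_contra fun m =>
    n (fE (by rw [oE.frontier_eq]; exact ⟨closure_mono DE hz, m⟩))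
  have ht : ∀ j ∈ s.erase i, j ∈ s ∧ j ≠ i := fun j hj =>
    ⟨Finset.mem_of_mem_erase hj, Finset.ne_of_mem_erase hj⟩
  have hne : ∀ j ∈ s.erase i, ∀ z ∈ closure D, z ∈ closure (W j) → z ∈ E := fun j hj z a b =>
    key z a (h.pw' j (ht j hj).1 i hi (ht j hj).2 z a b)
  have SE : S ⊆ E := fun z hz => key z (h.sD hz) (h.dS i hi z hz)
  have WE : ∀ j ∈ s.erase i, W j ⊆ E := fun j hj => by
    obtain ⟨z, z1, z2⟩ := h.ne j (ht j hj).1
    obtain ⟨y, y1, y2⟩ := mem_closure_iff.1 z2 E oE (hne j hj z z1 z2)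
    rw [hE, connectedComponentIn_eq y1]
    exact (h.pc j (ht j hj).1).subset_connectedComponentIn y2 (disjoint_left.1
      ((h.pw j (ht j hj).1 i hi (ht j hj).2).closure_right (h.op j (ht j hj).1)))
  obtain ⟨l, _, U, G, H, g, k, B, hB, hG, hH⟩ := kernel2 cE
  set L := S ∪ ⋃ j ∈ s.erase i, closure D ∩ closure (W j) with hL
  have cL : IsCompact L := h.cS.union ((s.erase i).isCompact_biUnion fun j _ =>
    h.dom.1.isCompact_closure.inter_right isClosed_closure)
  have LE : L ⊆ E := union_subset SE (iUnion₂_subset fun j hj z hz => hne j hj z hz.1 hz.2)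
  obtain ⟨τ, ⟨τ0, τ1⟩, hτ⟩ : ∃ τ ∈ Ioo (0 : ℝ) 1, g '' L ⊆ ball 0 τ := by
    obtain ⟨τ, a, b⟩ := exists_lt_subset_ball
      (cL.image_of_continuousOn (B.fd.continuousOn.mono LE)).isClosed
      ((image_mono LE).trans B.fm.image_subset)
    exact ⟨max τ (1 / 2), ⟨lt_max_of_lt_right one_half_pos, max_lt a one_half_lt_one⟩,
      b.trans (ball_subset_ball (le_max_left _ _))⟩
  have oD := img_open B DE h.dom.2.1
  have sD : g '' D ⊆ ball 0 1 := (image_mono DE).trans B.fm.image_subset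
  have fD : ∀ w ∈ closure (g '' D), w ∈ ball (0 : ℂ) 1 → w ∉ g '' D → w ∈ g '' L := by
    intro w a b c
    refine (img_iff B LE).2 ⟨b, ?_⟩
    rcases h.fr (k w) (by
      rw [h.dom.2.1.frontier_eq]
      exact ⟨img_cl B DE b a, fun e => c ((img_iff B DE).2 ⟨b, e⟩)⟩) with e | ⟨j, hj, e⟩
    · exact Or.inl e
    · exact Or.inr (mem_biUnion (Finset.mem_erase.2 ⟨fun e' => sE (B.gm b) (e' ▸ e), hj⟩)
        ⟨img_cl B DE b a, e⟩)
  have hA : {z : ℂ | τ < ‖z - 0‖ ∧ ‖z - 0‖ < 1} ⊆ g '' D := by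
    refine (annulus 0 τ0.le).subset_of_closure_inter_subset oD ?_ ?_
    · obtain ⟨z, z1, z2⟩ := h.ne i hi
      have hs : closedBall (0 : ℂ) τ ⊆ ball 0 1 := closedBall_subset_ball τ1
      obtain ⟨y, y1, y2⟩ := mem_closure_iff.1 z1 _ ((isCompact_closedBall (0 : ℂ) τ
        ).image_of_continuousOn (B.gd.continuousOn.mono hs)).isClosed.isOpen_compl
        fun e => sE (((image_mono hs).trans B.gm.image_subset) e) z2
      refine ⟨g y, ⟨?_, ?_⟩, y, y2, rfl⟩
      · rw [sub_zero]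
        exact not_le.1 fun e => y1 ⟨g y, mem_closedBall_zero_iff.2 e, B.li y (DE y2)⟩
      · rw [sub_zero]
        exact mem_ball_zero_iff.1 (B.fm (DE y2))
    · rintro w ⟨a, b⟩
      by_contra c
      rw [mem_ofPred_eq, sub_zero] at b
      exact (mem_ball_zero_iff.1 (hτ (fD w a (mem_ball_zero_iff.2 b.2) c))).not_gt b.1
  have cW : ∀ j ∈ s.erase i, closure (g '' W j) ⊆ ball 0 1 := fun j hj => by
    refine (closure_minimal (fun w hw => ?_) isClosed_closedBall).trans (closedBall_subset_ball τ1)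
    rw [img_iff B (WE j hj)] at hw
    refine mem_closedBall_zero_iff.2 (not_lt.1 fun e => ?_)
    exact disjoint_left.1 (h.dj j (ht j hj).1) hw.2 ((img_iff B DE).1
      (hA ⟨by rwa [sub_zero], by rw [sub_zero]; exact mem_ball_zero_iff.1 hw.1⟩)).2
  refine ⟨_, _, _, g, k, h.map B (Finset.erase_subset _ _) DE SE WE hne (isBounded_ball.subset sD)
    (fun j hj w _ hw => cW j hj hw) (fun j hj n z hz e => ?_)
    (S' := sphere 0 1 ∩ closure (g '' D)) ((isCompact_sphere _ _).inter_right isClosed_closure)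
    inter_subset_right (fun w hw e => (mem_ball.1 e).ne hw.1) ?_ fun w hw n => ⟨?_, hw⟩,
    bi_sub B DE h.dom.2.1, ⟨l, inferInstance, U, fun _ => ball 0 1, G, H,
      fun k => ⟨(hB k).1, (closure_mono DE).trans (hB k).2⟩, fun z hz => hG z (DE hz),
      fun O hO hs => ?_, fun C hC hs => ?_⟩, fun e1 e2 => ?_⟩
  · obtain rfl : j = i := by_contra fun e' => n (Finset.mem_erase.2 ⟨e', hj⟩)
    exact sE e hz
  · exact (h.sm.map B DE SE).union ((sm_disc τ0 τ1 sD hA).mono inter_subset_left) isOpen_ball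
      (isClosed_closedBall (x := (0 : ℂ)) (ε := τ)).isOpen_compl
      ((image_mono subset_union_left).trans hτ)
      (fun w hw e => by
        have := mem_closedBall.1 e
        rw [mem_sphere.1 hw.1] at this
        linarith)
      (disjoint_compl_right_iff_subset.2 ball_subset_closedBall)
  · exact le_antisymm (mem_closedBall.1 (closure_ball_subset_closedBall (closure_mono sD hw)))
      (not_lt.1 n)
  · have hs' : closedBall (0 : ℂ) τ \ O ⊆ ball 0 1 := sdiff_subset.trans (closedBall_subset_ball τ1)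
    filter_upwards [hH _ ((isCompact_closedBall (0 : ℂ) τ).diff hO) hs' _
      (isClosed_closure (s := D)).isOpen_compl fun w hw e => hw.2 (hs (by
        have := cl_img B (B.gm (hs' hw)) e
        rwa [B.ri w (hs' hw)] at this))] with k hk z hz
    have zU := (hB k).2 (closure_mono DE hz)
    by_contra n
    by_cases e : ‖G k z‖ ≤ τ
    · refine hk ⟨mem_closedBall_zero_iff.2 e, n⟩ ?_
      rwa [(hB k).1.li z zU]
    · exact n (hs (subset_closure (hA ⟨by rw [sub_zero]; exact not_le.1 e,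
        by rw [sub_zero]; exact mem_ball_zero_iff.1 ((hB k).1.fm zU)⟩)))
  · filter_upwards [hH C hC (hs.trans sD) D h.dom.2.1 fun w hw => ((img_iff B DE).1 (hs hw)).2]
      with k hk using ⟨hs.trans sD, hk⟩
  · refine sD.antisymm ((convex_ball (0 : ℂ) 1).isPreconnected.subset_of_closure_inter_subset oD
      ⟨g z₀, B.fm (DE hz₀), z₀, hz₀, rfl⟩ fun w hw => by_contra fun c => ?_)
    have := fD w hw.1 hw.2 c
    simp [hL, e1, e2] at this

theorem St.ind {P : Set ℂ → Prop} (h0 : ∀ D, IsConnected D → IsC1 D → P D)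
    (h1 : ∀ D D' φ ψ, IsDom D → IsDom D' → Bi D D' φ ψ → Apx D D' φ → P D' → P D) (n : ℕ) :
    ∀ {s : Finset ι} {W : ι → Set ℂ} {D S : Set ℂ}, s.card = n → St D s W S → P D := by
  classical
  induction n with
  | zero =>
    intro s W D S e h
    rw [Finset.card_eq_zero] at e
    subst e
    exact h0 D h.dom.2.2 (c1_of_sm h.dom.1 h.dom.2.1 (h.sm.mono fun z hz =>
      (h.fr z hz).elim id fun ⟨_, a, _⟩ => absurd a (Finset.notMem_empty _)))
  | succ n ih =>
    intro s W D S e h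
    obtain ⟨i, hi⟩ := Finset.card_pos.1 (show 0 < s.card by omega)
    obtain ⟨D', W', S', φ, ψ, h', B, a, -, R, hW⟩ := h.inv hi
    obtain ⟨D'', W'', S'', φ', ψ', h'', B', a', -⟩ := h'.rm hi hW
    exact h1 _ _ _ _ h.dom h'.dom B a (h1 _ _ _ _ h'.dom h''.dom B' a'
      (ih (by rw [Finset.card_erase_of_mem hi, e]; rfl) h''))

theorem IsCaraK.st {k : ℕ} (h : IsCaraK k D) :
    ∃ (s : Finset (Fin k)) (W : Fin k → Set ℂ), St D s W ∅ := by
  classical
  obtain ⟨hD, W, a, b, c⟩ := h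
  refine ⟨Finset.univ.filter fun i => ∃ z ∈ closure D, z ∈ closure (W i), W, hD,
    fun i _ => (a i).1, fun i _ => (a i).2.1, fun i _ => (a i).2.2,
    fun i hi => (Finset.mem_filter.1 hi).2,
    fun i _ j _ e => (b i j e).mono subset_closure subset_closure,
    fun i _ j _ e z _ m => disjoint_left.1 (b i j e) m, isCompact_empty, empty_subset _,
    fun _ _ _ h => h.elim, ⟨∅, 0, isOpen_empty, subset_rfl, contDiffOn_empty,
      fun _ h => h.elim, fun _ h => h.elim⟩, fun z hz => ?_⟩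
  obtain ⟨i, hi⟩ := mem_iUnion.1 (c hz)
  exact Or.inr ⟨i, Finset.mem_filter.2 ⟨Finset.mem_univ _, z, frontier_subset_closure hz, hi⟩, hi⟩

theorem bij_bi {D' : Set ℂ} {g h : ℂ → ℂ} (B : Bi D D' g h) : BijOn g D D' :=
  ⟨B.fm, B.inj, fun w hw => ⟨h w, B.gm hw, B.ri w hw⟩⟩

theorem IsCaraK.disc (h : IsCaraK 1 D) :
    ∃ φ : ℂ → ℂ, DifferentiableOn ℂ φ D ∧ BijOn φ D (ball 0 1) := by
  obtain ⟨s, W, h⟩ := h.st
  obtain ⟨z, hz⟩ : (frontier D).Nonempty := nonempty_iff_ne_empty.2 fun e =>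
    NormedSpace.unbounded_univ ℝ ℂ ((isClopen_iff_frontier_eq_empty.2 e).eq_univ
      h.dom.2.2.nonempty ▸ h.dom.1)
  obtain ⟨i, hi, -⟩ := (h.fr z hz).resolve_left id
  obtain ⟨D', W', S', φ, ψ, h', B, -, e, R, hW⟩ := h.inv hi
  obtain ⟨D'', -, -, φ', ψ', -, B', -, e'⟩ := h'.rm hi hW
  obtain rfl := e' (e rfl) (Finset.eq_empty_of_forall_notMem fun j hj =>
    Finset.ne_of_mem_erase hj (Subsingleton.elim _ _))
  exact ⟨fun z => φ' (φ z), B'.fd.comp B.fd B.fm, (bij_bi B').comp (bij_bi B)⟩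

end Vale.Agent.N144K
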