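import Vale.Agent.N144K.Step
import Vale.Agent.N144J.Main
import Vale.Agent.P144N.Nice

/-!
Approximation by regular domains from inside and from outside is kept by conformal maps.
-/

namespace Vale.Agent.N144K

open Set Filter Topology Metric Vale.Agent.P144 Vale.Agent.P144Z Vale.Agent.N144 Vale.Agent.N144.C
open Vale.Agent.P144Y (Nice)
open Vale.Agent.P144N Vale.Agent.N144J

variable {J : ℝ} {CD : Set ℂ → BC → Pts → ℝ} {b : BC} {D D' D'' : Set ℂ} {p : Pts}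

/-- Regular domains inside and outside with correlations close to `c`. -/
def App (CD : Set ℂ → BC → Pts → ℝ) (D : Set ℂ) (b : BC) (p : Pts) (c : ℝ) : Prop :=
  ∀ ε > 0, ∃ D₁ D₂, (IsConnected D₁ ∧ IsC1 D₁) ∧ (IsConnected D₂ ∧ IsC1 D₂) ∧ closure D₁ ⊆ D ∧
    closure D ⊆ D₂ ∧ Good D₁ p ∧ |CD D₁ b p - c| < ε ∧ |CD D₂ b p - c| < ε

theorem between (H : Base J CD) (hJ : 0 < J) (hb : StdBC b) (hm : p.m = 0) {Q₁ R Q₂ : Set ℂ}
    (h1 : IsConnected Q₁ ∧ IsC1 Q₁) (h : IsConnected R ∧ IsC1 R) (h2 : IsConnected Q₂ ∧ IsC1 Q₂)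
    (s1 : Q₁ ⊆ R) (s2 : R ⊆ Q₂) (hp : Good Q₁ p) {Z c ε : ℝ} (hZ : 0 ≤ Z)
    (e1 : |Z * CD Q₁ b p - c| < ε) (e2 : |Z * CD Q₂ b p - c| < ε) : |Z * CD R b p - c| < ε := by
  obtain ⟨s, hs, hM⟩ := mono_b hb p.n
  have k : ∀ {A B : Set ℂ}, IsConnected A ∧ IsC1 A → IsConnected B ∧ IsC1 B → A ⊆ B → Good A p →
      Z * (s * CD A b p) ≤ Z * (s * CD B b p) := fun a b' c g => mul_le_mul_of_nonneg_left
    (le_of_tendsto_of_tendsto ((lim_of_loc (H.loc _ b (nice_c1 a.1 a.2 hb)) g).const_mul s)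
      ((lim_of_loc (H.loc _ b (nice_c1 b'.1 b'.2 hb)) (good_mono c g)).const_mul s)
      ((hM p rfl hm).crit hJ c b'.2.1 fun i => by
        rw [(c1_open a.2).interior_eq]; exact g.2.1 i)) hZ
  have a1 := k h1 h s1 hp
  have a2 := k h h2 s2 (good_mono s1 hp)
  rw [abs_lt] at e1 e2 ⊢
  rcases hs with rfl | rfl <;> constructor <;> linarith [e1.1, e1.2, e2.1, e2.2]

theorem comp_conn {K O : Set ℂ} (hK : IsCompact K) (hc : IsConnected K) (hO : IsOpen O)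
    (h : K ⊆ O) : ∃ Q, IsConnected Q ∧ IsC1 Q ∧ K ⊆ Q ∧ closure Q ⊆ O := by
  obtain ⟨z, hz⟩ := hc.nonempty
  obtain ⟨Q, a, b, c, d⟩ := exists_c1c hK (hO.connectedComponentIn (x := z))
    (isConnected_connectedComponentIn_iff.2 (h hz))
    (hc.isPreconnected.subset_connectedComponentIn hz h)
  exact ⟨Q, a, b, c, d.trans (connectedComponentIn_subset _ _)⟩

theorem app_c1 (H : Base J CD) (hJ : 0 < J) (hb : StdBC b) (h1 : IsConnected D) (h2 : IsC1 D)
    (hp : Good D p) (hm : p.m = 0) : App CD D b p (CD D b p) := by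
  obtain ⟨-, c, hc, hS⟩ := nice_stab hJ (nice_c1 h1 h2 hb) hp hm
  obtain rfl : c = CD D b p :=
    tendsto_nhds_unique hc (lim_of_loc (H.loc _ b (nice_c1 h1 h2 hb)) hp)
  intro ε hε
  obtain ⟨D₁, D₂, i1, i2, g, e⟩ := hS _ (half_pos hε)
  have o := c1_open h2
  have i1' : closure D₁ ⊆ D := i1.2.trans interior_subset
  obtain ⟨Q₁, a1, a2, a3, a4⟩ := exists_c1c
    (h2.1.subset (subset_closure.trans i1')).isCompact_closure o h1 i1'
  obtain ⟨Q₂, b1, b2, b3, b4⟩ := comp_conn h2.1.isCompact_closure h1.closure isOpen_interior i2.2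
  have s1 : D₁ ⊆ Q₁ := subset_closure.trans a3
  have s2 : Q₁ ⊆ Q₂ := subset_closure.trans (a4.trans (subset_closure.trans b3))
  have s3 : Q₂ ⊆ D₂ := subset_closure.trans (b4.trans interior_subset)
  have g1 : Good Q₁ p := good_mono (interior_subset.trans s1) g
  obtain ⟨s, hs, hM⟩ := mono_b hb p.n
  have k : ∀ Q, IsConnected Q → IsC1 Q → D₁ ⊆ Q → Q ⊆ D₂ → |CD Q b p - CD D b p| < ε := by
    intro Q q1 q2 q3 q4
    have gQ : Good Q p := good_mono (interior_subset.trans q3) g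
    refine lt_of_le_of_lt (le_of_tendsto (((lim_of_loc (H.loc _ b (nice_c1 q1 q2 hb)) gQ).sub_const
      (CD D b p)).abs) ?_) (half_lt_self hε)
    filter_upwards [e, (hM p rfl hm).crit hJ q3 q2.1 g.2.1, (hM p rfl hm).crit hJ q4 i2.1
      fun i => by rw [(c1_open q2).interior_eq]; exact gQ.2.1 i] with a ⟨e1, e2⟩ m1 m2
    rw [abs_le] at e1 e2 ⊢
    rcases hs with rfl | rfl <;> constructor <;> linarith [e1.1, e1.2, e2.1, e2.2]
  exact ⟨Q₁, Q₂, ⟨a1, a2⟩, ⟨b1, b2⟩, a4, b3, g1, k _ a1 a2 s1 (s2.trans s3),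
    k _ b1 b2 (s1.trans s2) s3⟩

theorem cont_c1 (H : Base J CD) (hb : StdBC b) (h1 : IsConnected D) (h2 : IsC1 D) {n m : ℕ}
    (j : Fin m → Fin 2) {z : (Fin n → ℂ) × (Fin m → ℂ)} (hz : Good D ⟨n, m, z.1, z.2, j⟩) :
    ContinuousWithinAt (fun z : (Fin n → ℂ) × (Fin m → ℂ) => CD D b ⟨n, m, z.1, z.2, j⟩)
      {z | Good D ⟨n, m, z.1, z.2, j⟩} z := by
  obtain ⟨R, hR⟩ := h2.1.subset_ball 0
  obtain ⟨u, u1, u2⟩ : ∃ u : ℂ, u.re = R ∧ u.im = R := ⟨⟨R, R⟩, rfl, rfl⟩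
  have B : Bi univ univ (fun w : ℂ => w + u) fun w => w - u :=
    ⟨isOpen_univ, isOpen_univ, by fun_prop, by fun_prop, mapsTo_univ _ _, mapsTo_univ _ _,
      fun _ _ => add_sub_cancel_right _ _, fun _ _ => sub_add_cancel _ _⟩
  have bij := bij_bi (bi_sub B (subset_univ D) (c1_open h2))
  have n' : Nice ((fun w : ℂ => w + u) '' D) b :=
    nice_c1 (h1.image _ (by fun_prop)) (c1_img B h2 (subset_univ _)) hb
  have c := cont_of_loc (H.loc _ b n') j
    (z := (fun i => z.1 i + u, fun i => z.2 i + u)) (good_bij hz bij) (by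
      rintro _ ⟨w, hw, rfl⟩
      have hw := mem_ball_zero_iff.1 (hR hw)
      have a := abs_lt.1 ((Complex.abs_re_le_norm _).trans_lt hw)
      have b := abs_lt.1 ((Complex.abs_im_le_norm _).trans_lt hw)
      simp only [Complex.add_re, Complex.add_im, u1, u2]
      constructor <;> intro e <;> linarith [a.1, b.1])
  have c2 := ContinuousWithinAt.comp (f := fun z : (Fin n → ℂ) × (Fin m → ℂ) =>
    ((fun i => z.1 i + u, fun i => z.2 i + u) : (Fin n → ℂ) × (Fin m → ℂ)))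
    (s := {z | Good D ⟨n, m, z.1, z.2, j⟩}) c (by fun_prop) fun y hy => good_bij hy bij
  have e : ∀ y : (Fin n → ℂ) × (Fin m → ℂ), Good D ⟨n, m, y.1, y.2, j⟩ →
      CD D b ⟨n, m, y.1, y.2, j⟩ = CD ((fun w : ℂ => w + u) '' D) b
        ⟨n, m, fun i => y.1 i + u, fun i => y.2 i + u, j⟩ := fun y hy => by
    rw [H.cov _ b (nice_c1 h1 h2 hb) _ hy _ _ n' (by fun_prop) bij]
    simp [jac, push]
  exact c2.congr e (e z hz)

theorem jac_nonneg (φ : ℂ → ℂ) (p : Pts) : 0 ≤ jac φ p := by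
  unfold jac
  positivity

theorem transfer (H : Base J CD) (hJ : 0 < J) (hb : StdBC b) (hD : IsDom D) {φ : ℂ → ℂ}
    (a : Apx D D' φ) (hp : Good D p) (hm : p.m = 0) {c : ℝ} (h : App CD D' b (push φ p) c) :
    App CD D b p (jac φ p * c) := by
  obtain ⟨l, _, U, U', G, K, hB, hG, hO, hL⟩ := a
  intro ε hε
  have j0 := jac_nonneg φ p
  obtain ⟨Q₁, Q₂, c1, c2, i1, i2, g1, e1, e2⟩ := h (ε / (jac φ p + 1)) (by positivity)
  have DU : ∀ k, D ⊆ U k := fun k => subset_closure.trans (hB k).2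
  have s12 : Q₁ ⊆ Q₂ := subset_closure.trans (i1.trans (subset_closure.trans i2))
  have eg : ∀ᶠ k in l, Good Q₁ (push (G k) p) := by
    filter_upwards [eventually_all.2 fun i => (hG _ (hp.2.1 i)).1.eventually
        ((c1_open c1.2).mem_nhds (g1.2.1 i)),
      eventually_all.2 fun i => (hG _ (hp.2.2.1 i)).1.eventually
        ((c1_open c1.2).mem_nhds (g1.2.2.1 i))] with k q1 q2
    exact good_push hp ((hB k).1.inj.mono (DU k)) q1 q2
  have tc : ∀ Q, IsConnected Q ∧ IsC1 Q → Q₁ ⊆ Q →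
      |CD Q b (push φ p) - c| < ε / (jac φ p + 1) →
      ∀ᶠ k in l, |jac (G k) p * CD Q b (push (G k) p) - jac φ p * c| < ε := by
    intro Q q1 q2 q3
    have t : Tendsto (fun k => jac (G k) p * CD Q b (push (G k) p)) l
        (𝓝 (jac φ p * CD Q b (push φ p))) := by
      refine Tendsto.mul (Tendsto.mul (tendsto_finsetProd _ fun i _ =>
        (hG _ (hp.2.1 i)).2.norm.rpow_const (Or.inr (by norm_num)))
        (tendsto_finsetProd _ fun i _ => (hG _ (hp.2.2.1 i)).2.norm)) ?_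
      exact (cont_c1 H hb q1.1 q1.2 p.j (z := (fun i => φ (p.x i), fun i => φ (p.y i)))
        (good_mono q2 g1)).tendsto.comp
        (f := fun k => (fun i => G k (p.x i), fun i => G k (p.y i)))
        (tendsto_nhdsWithin_iff.2 ⟨(tendsto_pi_nhds.2 fun i => (hG _ (hp.2.1 i)).1).prodMk_nhds
          (tendsto_pi_nhds.2 fun i => (hG _ (hp.2.2.1 i)).1), eg.mono fun k => good_mono q2⟩)
    refine (t.sub_const _).abs.eventually (gt_mem_nhds ?_)
    rw [← mul_sub, abs_mul, abs_of_nonneg j0]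
    rw [lt_div_iff₀ (by positivity)] at q3
    nlinarith [abs_nonneg (CD Q b (push φ p) - c)]
  obtain ⟨k, ⟨⟨k1, k2⟩, k3, k4⟩, k5, k6⟩ := (((eg.and (hO Q₂ (c1_open c2.2) i2)).and
    ((tc Q₁ c1 subset_rfl e1).and (tc Q₂ c2 s12 e2))).and
    (hL _ c1.2.1.isCompact_closure i1)).exists
  have B := (hB k).1
  have cG := B.fd.continuousOn.mono (hB k).2
  obtain ⟨R, r1, r2, r3, r4⟩ := comp_conn (hD.1.isCompact_closure.image_of_continuousOn cG)
    (hD.2.2.closure.image _ cG) ((c1_open c2.2).inter B.op')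
    (subset_inter k2.image_subset ((image_mono (hB k).2).trans B.fm.image_subset))
  have sR : Q₁ ⊆ R := fun w hw => r3 ⟨K k w, subset_closure (k6 (subset_closure hw)),
    B.ri w (k5 (subset_closure hw))⟩
  have key : ∀ Q, IsConnected Q ∧ IsC1 Q → Q₁ ⊆ Q → closure Q ⊆ U' k →
      (IsConnected (K k '' Q) ∧ IsC1 (K k '' Q)) ∧ Good (K k '' Q) p ∧
      CD (K k '' Q) b p = jac (G k) p * CD Q b (push (G k) p) := by
    intro Q q1 q2 q3
    have q4 := subset_closure.trans q3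
    have a1 := q1.1.image _ (B.gd.continuousOn.mono q4)
    have a2 := c1_img B.symm q1.2 q3
    have B' := (bi_sub B.symm q4 (c1_open q1.2)).symm
    have gp : Good (K k '' Q) p := ⟨hp.1,
      fun i => (img_iff B.symm q4).2 ⟨DU k (hp.2.1 i), q2 (k1.2.1 i)⟩,
      fun i => (img_iff B.symm q4).2 ⟨DU k (hp.2.2.1 i), q2 (k1.2.2.1 i)⟩, hp.2.2.2⟩
    exact ⟨⟨a1, a2⟩, gp, H.cov _ b (nice_c1 a1 a2 hb) p gp _ _ (nice_c1 q1.1 q1.2 hb) B'.fd
      (bij_bi B')⟩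
  obtain ⟨x1, x2, x3⟩ := key Q₁ c1 subset_rfl k5
  obtain ⟨y1, -, y3⟩ := key R ⟨r1, r2⟩ sR (r4.trans inter_subset_right)
  refine ⟨_, _, x1, y1, (cl_sub B.symm c1.2.1 k5).trans k6.image_subset, fun z hz =>
    ⟨G k z, r3 ⟨z, hz, rfl⟩, B.li z ((hB k).2 hz)⟩, x2, x3 ▸ k3, ?_⟩
  rw [y3]
  exact between H hJ hb (p := push (G k) p) hm c1 ⟨r1, r2⟩ c2 sR
    (subset_closure.trans (r4.trans inter_subset_left)) k1 (jac_nonneg _ _) k3 k4

theorem bi_comp {f g f' g' : ℂ → ℂ} (B : Bi D D' f g) (B' : Bi D' D'' f' g') :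
    Bi D D'' (fun z => f' (f z)) fun w => g (g' w) :=
  ⟨B.op, B'.op', B'.fd.comp B.fd B.fm, B.gd.comp B'.gd B'.gm, B'.fm.comp B.fm, B.gm.comp B'.gm,
    fun z hz => by rw [B'.li _ (B.fm hz), B.li z hz],
    fun w hw => by rw [B.ri _ (B'.gm hw), B'.ri w hw]⟩

theorem bi_id (h : IsOpen D) : Bi D D (fun z => z) fun z => z :=
  ⟨h, h, differentiableOn_id, differentiableOn_id, mapsTo_id _, mapsTo_id _, fun _ _ => rfl,
    fun _ _ => rfl⟩

theorem jac_id (p : Pts) : jac (fun z => z) p = 1 := by simp [jac]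

/-- A regular model of the domain. -/
theorem model (H : Base J CD) (hJ : 0 < J) {k : ℕ} (hD : IsCaraK k D) :
    ∃ D' g h, Bi D D' g h ∧ IsConnected D' ∧ IsC1 D' ∧ ∀ b, StdBC b → ∀ p, Good D p → p.m = 0 →
      App CD D b p (jac g p * CD D' b (push g p)) := by
  obtain ⟨s, W, h⟩ := hD.st
  refine St.ind (P := fun D => ∃ D' g h, Bi D D' g h ∧ IsConnected D' ∧ IsC1 D' ∧ ∀ b, StdBC b →
    ∀ p, Good D p → p.m = 0 → App CD D b p (jac g p * CD D' b (push g p)))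
    (fun D h1 h2 => ⟨D, _, _, bi_id (c1_open h2), h1, h2, fun b hb p hp hm => ?_⟩) ?_ _ rfl h
  · rw [jac_id, one_mul]
    exact app_c1 H hJ hb h1 h2 hp hm
  · rintro D D' φ ψ d1 - B a ⟨D'', g, h, B', c1, c2, c3⟩
    refine ⟨D'', _, _, bi_comp B B', c1, c2, fun b hb p hp hm => ?_⟩
    obtain ⟨e1, e2⟩ := jac_comp (χ := fun z => g (φ z)) hp B.op B.op' B.fd B'.fd B.fm
      fun _ _ => rfl
    rw [e1, e2, mul_assoc]
    exact transfer H hJ hb d1 a hp hm (c3 b hb _ (good_bij hp (bij_bi B)) hm)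

end Vale.Agent.N144K
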